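import Vale.Agent.P236C.All
import Vale.Agent.P236T.Cert
import Vale.Agent.P236D.Main
import Vale.Agent.P236O.Lift
import Vale.Agent.P236B.Ghost2

/-!
# P236: from the kernel computations to the tables
-/

namespace Vale.Agent.P236N

open Vale.Agent.P236A Vale.Agent.P236B Vale.Agent.P236C Vale.Agent.P236T Vale.Agent.P236K
  MvPolynomial

theorem dvd_of_mem_JJ {a N a' N' : ℕ} (h1 : a' ≤ a) (h2 : a' ≤ N) (h3 : N' ≤ N) {r : Av (ZMod 9)}
    (h : r ∈ JJ 3 (ZMod 9) a N) :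
    (X 0 : Av (ZMod 9)) ^ a' ∣ r ∧ (X 0 : Av (ZMod 3)) ^ N' ∣ map r3 r := by
  obtain ⟨c, d, rfl⟩ := Ideal.mem_span_pair.1 h
  refine ⟨dvd_add (((pow_dvd_pow _ h1).mul_left _).mul_left _) ((pow_dvd_pow _ h2).mul_left _), ?_⟩
  have h0 : ((3 : ℕ) : Av (ZMod 3)) = 0 := by
    rw [← map_natCast (C : ZMod 3 →+* Av (ZMod 3)), ZMod.natCast_self, map_zero]
  rw [map_add, map_mul, map_mul, map_mul, map_natCast, h0, zero_mul, mul_zero, zero_add, map_pow,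
    map_X]
  exact (pow_dvd_pow _ h3).mul_left _

/-- **The tables are correct** if the matrix `δ` reduces to the minimal resolution, its square lies
in the ideals `(3 v_1 ^ a, v_1 ^ N)` and there is a certificate for the tables. -/
theorem real_of {S T0 : ℕ} (hS : S ≤ 26) (hT : T0 ≤ 94) {δ : Mat (Io S) (Av (ZMod 9))}
    (hH : HomD 3 (Gam S) δ) (hb : bar 3 r3 δ = xi0 S) {a N aa Nn : ℕ → ℕ} (ha : Antitone a)
    (hN : Antitone N) (haN : ∀ s, a s < N s) (h1 : ∀ s, aa s ≤ a s) (h2 : ∀ s, Nn s ≤ N s)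
    (hsq : SqIn 3 (Gam S) δ (fun s => JJ 3 (ZMod 9) (a s) (N s)) (2 * T0)) {τ : Tab}
    (c : Cert (Gam S) δ τ S T0 aa Nn) : Nonempty (Real τ) := by
  have h3 : ∀ s, ∀ r ∈ JJ 3 (ZMod 9) (a s) (N s), r3 (constantCoeff r) = 0 :=
    fun s r hr => red_JJ 3 r3 (by have := haN s; omega) hr
  have hE := exactP_of_sqIn hS hT r3 hb hsq h3
  obtain ⟨δ', k1, k2, k3⟩ := P236O.liftStmt 3 (Io S) (Gam S) 9 1 rfl r3 δ _ S (2 * T0) hH
    (fun g => Nat.le_of_lt_succ g.1.2) (fun s s' h => JJ_mono 3 (ha h) (hN h))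
    (fun s => inv_JJ 3 (by decide) (.inl (haN s))) h3 hsq hE
  have h4 : bar 3 r3 δ' = bar 3 r3 δ := by
    funext g g' J
    rw [bar, bar, ← sub_eq_zero, ← map_sub, ← map_sub]
    exact h3 _ _ (k3 g g' J)
  exact P236D.brg (Io S) (Gam S) δ' S T0 τ k1 k2 (h4 ▸ hE) (by omega)
    (c.creal (fun g g' J => dvd_of_mem_JJ (h1 _) ((h1 _).trans (haN _).le) (h2 _) (k3 g g' J))
      k1 k2)

end Vale.Agent.P236N
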