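import Vale.Agent.P236C.Exact
import Vale.Agent.P236O.Lift
import Vale.Agent.P236B.Ghost2
import Vale.Agent.P236T.Defs

/-!
# P236: it suffices to check `δ ∘ δ ∈ 𝔞` on the rows of the rank certificates
-/

noncomputable section

namespace Vale.Agent.P236N

open Vale.Agent.P236A Vale.Agent.P236B Vale.Agent.P236C Vale.Agent.P236T MvPolynomial Module
open Vale.Agent.P236O (DL DL_apply DL_bs bs_apply)

/-- the differential has rank at least `r` on the rows with `Q` in the cell `(s, T)` -/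
def RankQ (Q : ℕ → (ℕ →₀ ℕ) → Prop) (s T r : ℕ) : Prop :=
  ∃ (k : Fin r → Fin 64) (J : Fin r → ℕ →₀ ℕ),
    (∀ i, mz 3 (J i) + (2 * gw s (k i) : ℕ) = (2 * T : ℕ)) ∧ (∀ i, Q (k i) (J i)) ∧
    LinearIndependent (ZMod 3) fun (i : Fin r) (k' : Fin 64) =>
      actP 3 (xi s (k i) k') (monomial (J i) 1)

theorem RankQ.ok {Q : ℕ → (ℕ →₀ ℕ) → Prop} {s T r : ℕ} (h : RankQ Q s T r) : RankOK s T r := by
  obtain ⟨k, J, h1, -, h2⟩ := h
  exact ⟨k, J, h1, h2⟩

variable {S : ℕ}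

theorem HH_le {s : ℕ} {w : ℤ} {U : Submodule (ZMod 3) (Io S → PP 3)}
    (h : ∀ (g : Io S) J, (g.1 : ℕ) = s → mz 3 J + (Gam S).wt g = w → bv g J ∈ U) :
    HH S s w ≤ U := fun y hy => by
  rw [← Finset.univ_sum_single y]
  refine sum_mem fun g _ => ?_
  by_cases hg : (g.1 : ℕ) = s
  · rw [(y g).as_sum, ← LinearMap.single_apply (ZMod 3), map_sum]
    refine sum_mem fun J hJ => ?_
    have h1 := (hy g).1 (mem_support_iff.1 hJ)
    have h2 := U.smul_mem (coeff J (y g)) (h g J hg (by rw [mz, h1]; ring))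
    rwa [bv, ← Pi.single_smul, smul_monomial, smul_eq_mul, mul_one] at h2
  · rw [(hy g).2 hg, Pi.single_zero]
    exact zero_mem _

theorem bv_HH (g : Io S) (J : ℕ →₀ ℕ) :
    (bv g J : Io S → PP 3) ∈ HH S g.1 (mz 3 J + (Gam S).wt g) :=
  (hom_iff 3 _).2 (bv_mem 3 (Gam S) (Grd.triv (ZMod 3)) g J)

/-- the span of the chosen rows -/
theorem exists_span {Q : ℕ → (ℕ →₀ ℕ) → Prop} {s T r : ℕ} (hs : s ≤ S) (h : RankQ Q s T r) :
    ∃ B : Submodule (ZMod 3) (Io S → PP 3), B ≤ HH S s (2 * T) ∧ finrank (ZMod 3) B = r ∧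
      Disjoint B (LinearMap.ker (LL S)) ∧ ∀ U : Submodule (ZMod 3) (Io S → PP 3),
        (∀ (g : Io S) J, (g.1 : ℕ) = s → mz 3 J + (Gam S).wt g = 2 * T → Q g.2 J → bv g J ∈ U) →
          B ≤ U := by
  obtain ⟨k, J, hw, hQ, hl⟩ := h
  let b : Fin r → Io S → PP 3 := fun i => bv ((⟨s, by omega⟩, k i) : Io S) (J i)
  have hw' : ∀ i, mz 3 (J i) + (Gam S).wt ((⟨s, by omega⟩, k i) : Io S) = 2 * T := fun i => by
    have h2 := hw i
    rw [Gam_wt]
    push_cast at h2 ⊢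
    exact h2
  let π : (Io S → PP 3) →ₗ[ZMod 3] (Fin 64 → PP 3) :=
    LinearMap.pi fun k' => LinearMap.proj ((⟨s + 1, by omega⟩, k') : Io S)
  have h3 : LinearIndependent (ZMod 3) (LL S ∘ b) := by
    refine LinearIndependent.of_comp π ?_
    convert hl using 1
    funext i k'
    change LL S (bv _ _) _ = _
    rw [LL, bv, XB_single]
    beta_reduce
    rw [actB_P 3 fun i => by simp]
    congr 1
    funext L
    simp [dl0, xi0]
  refine ⟨Submodule.span _ (Set.range b), Submodule.span_le.2 ?_, ?_,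
    Submodule.range_ker_disjoint h3, fun U hU => Submodule.span_le.2 ?_⟩
  · rintro _ ⟨i, rfl⟩
    exact hw' i ▸ bv_HH _ (J i)
  · rw [finrank_span_eq_card (h3.of_comp _), Fintype.card_fin]
  · rintro _ ⟨i, rfl⟩
    exact hU _ _ rfl (hw' i) (hQ i)

theorem span_zero {Q : ℕ → (ℕ →₀ ℕ) → Prop} {T : ℕ} (hT : T + 1 ≤ 97)
    (h : RankQ Q 0 (T + 1) (rT 0 (T + 1))) {U : Submodule (ZMod 3) (Io S → PP 3)}
    (hU : ∀ (g : Io S) J, (g.1 : ℕ) = 0 → mz 3 J + (Gam S).wt g = 2 * (T + 1 : ℕ) → Q g.2 J →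
      bv g J ∈ U) : HH S 0 (2 * (T + 1 : ℕ)) ≤ U := by
  obtain ⟨B, h1, h2, -, h4⟩ := exists_span (Nat.zero_le S) h
  have := finite_HH S (Nat.zero_le _) hT
  have h5 := finrank_HH S (Nat.zero_le _) hT
  have h6 : nT (Gs.getD 0 0) (T + 1) ≤ rT 0 (T + 1) :=
    Nat.le_of_ble_eq_true (allLt_spec cnt_chk0 T (by omega))
  rw [← Submodule.eq_of_le_of_finrank_le h1 (by omega)]
  exact h4 U hU

theorem span_succ {Q : ℕ → (ℕ →₀ ℕ) → Prop} {s T : ℕ} (hs : s + 1 ≤ S) (hS : S ≤ 26) (hT : T ≤ 97)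
    (h' : RankOK s T (rT s T)) (h : RankQ Q (s + 1) T (rT (s + 1) T))
    (hsq : ∀ y ∈ HH S s (2 * T), LL S (LL S y) = 0) {U : Submodule (ZMod 3) (Io S → PP 3)}
    (hU : ∀ (g : Io S) J, (g.1 : ℕ) = s + 1 → mz 3 J + (Gam S).wt g = 2 * T → Q g.2 J →
      bv g J ∈ U)
    (hU' : ∀ (g : Io S) J, (g.1 : ℕ) = s → mz 3 J + (Gam S).wt g = 2 * T → LL S (bv g J) ∈ U) :
    HH S (s + 1) (2 * T) ≤ U := by
  obtain ⟨B, h1, h2, h3, h4⟩ := exists_span hs h
  have := finite_HH S (show s + 1 ≤ S + 1 by omega) hT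
  have h5 := finrank_HH S (show s + 1 ≤ S + 1 by omega) hT
  have h6 := le_rank S (show s ≤ S by omega) hT h'
  have h7 : nT (Gs.getD (s + 1) 0) T ≤ rT (s + 1) T + rT s T := by
    have h8 := allLt_spec cnt_chk s (by omega)
    rw [frc_eq, frc_eq, frc_eq] at h8
    exact Nat.le_of_ble_eq_true (allLt_spec h8 T (by omega))
  have h8 : (HH S s (2 * (T : ℤ))).map (LL S) ≤ HH S (s + 1) (2 * T) := by
    rintro _ ⟨z, hz, rfl⟩
    exact LL_mem S hz
  have h9 : B ⊓ (HH S s (2 * (T : ℤ))).map (LL S) = ⊥ := by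
    refine (h3.mono_right ?_).eq_bot
    rintro _ ⟨z, hz, rfl⟩
    exact hsq z hz
  have := Submodule.finiteDimensional_of_le h1
  have := Submodule.finiteDimensional_of_le h8
  have h10 := Submodule.finrank_sup_add_finrank_inf_eq B ((HH S s (2 * (T : ℤ))).map (LL S))
  rw [h9, finrank_bot] at h10
  rw [← Submodule.eq_of_le_of_finrank_le (sup_le h1 h8) (by omega)]
  exact sup_le (h4 U hU) (Submodule.map_le_iff_le_comap.2 (HH_le hU'))

variable {δ : Mat (Io S) (Av (ZMod 9))}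

/-- the reduction -/
def rho (y : Io S → Gm (ZMod 9)) : Io S → PP 3 := fun g => map (r3.comp constantCoeff) (y g)

theorem rho_bv (g : Io S) (J : ℕ →₀ ℕ) : rho (bv g J) = bv g J := by
  funext g'
  by_cases h : g' = g
  · subst h
    simp [rho, bv]
  · simp [rho, bv, h]

/-- the reductions of the homogeneous elements on which `ψ` takes values in `𝔞` -/
def UU (ψ : (Io S → Gm (ZMod 9)) →ₗ[Av (ZMod 9)] Av (ZMod 9)) (𝔞 : Ideal (Av (ZMod 9))) (s : ℕ)
    (w : ℤ) : Submodule (ZMod 3) (Io S → PP 3) :=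
  AddSubgroup.toZModSubmodule 3
    { carrier := {z | ∃ y ∈ HomG (Gam S) (gG 3 (ZMod 9)) s w, rho y = z ∧ ψ y ∈ 𝔞}
      add_mem' := by
        rintro _ _ ⟨y, h1, rfl, h2⟩ ⟨y', h3, rfl, h4⟩
        exact ⟨y + y', add_mem h1 h3, funext fun g => map_add _ _ _, map_add ψ y y' ▸ add_mem h2 h4⟩
      zero_mem' := ⟨0, zero_mem _, funext fun g => map_zero _, map_zero ψ ▸ zero_mem _⟩
      neg_mem' := by
        rintro _ ⟨y, h1, rfl, h2⟩
        exact ⟨-y, neg_mem h1, funext fun g => map_neg _ _, map_neg ψ y ▸ neg_mem h2⟩ }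

theorem DL_bv (δ : Mat (Io S) (Av (ZMod 9))) (g g' : Io S) (J : ℕ →₀ ℕ) :
    DL δ g' (bv g J) = δ g g' J := by
  rw [← DL_bs δ g' ⟨g, J⟩, bs_apply]

theorem DL_XG {𝔞 : Ideal (Av (ZMod 9))} (h𝔞 : Inv 3 𝔞) (g g'' : Io S) (J : ℕ →₀ ℕ)
    (h : ∀ g' L, mz 3 L ≤ mz 3 J → RR 3 δ δ g g' L ∈ 𝔞) :
    DL (RR 3 δ δ) g'' (XG 3 δ (bv g J)) ∈ 𝔞 := by
  rw [DL_apply, ← constantCoeff_XG 3, ← XG_XG, XG_XG 3 δ δ (bv g J), constantCoeff_XG]
  refine sum_mem fun g' _ => lin_mem_left (sum_mem fun g0 _ => ?_)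
  by_cases c : g0 = g
  · subst c
    rw [bv, Pi.single_eq_same]
    refine actG_mem 3 h𝔞 fun L hL => h g' L ?_
    simpa [mz] using le_of_coeff_RG 3 (Grd.monomial_mem (wz 3) J (gA 3 (ZMod 9)).one_mem) hL
  · rw [bv, Pi.single_eq_of_ne c, ← actB_id, actB_zero]
    exact zero_mem _

theorem mem_three {c : Av (ZMod 9)} (h : c ∈ (gA 3 (ZMod 9)).G 0) (h' : r3 (constantCoeff c) = 0) :
    c ∈ Ideal.span {(3 : Av (ZMod 9))} := by
  have h1 : c = C (constantCoeff c) := by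
    ext J
    by_cases e : J = 0
    · simp [e, constantCoeff_eq]
    · rw [coeff_C, if_neg (Ne.symm e)]
      by_contra h0
      exact e (mz_eq_zero 3 ((mem_gA 3).1 h h0))
  have h2 : ∀ x : ZMod 9, r3 x = 0 → ∃ y, x = y * 3 := by decide
  obtain ⟨y, hy⟩ := h2 _ h'
  exact Ideal.mem_span_singleton'.2 ⟨C y, by rw [h1, hy, map_mul, map_ofNat]⟩

theorem nak {ξ : Mat (Io S) (Av (ZMod 9))} {𝔞 : Ideal (Av (ZMod 9))} {s : ℕ} {w : ℤ} (g'' : Io S)
    (ih : ∀ (g : Io S) J, (g.1 : ℕ) = s → mz 3 J + (Gam S).wt g < w → ξ g g'' J ∈ 𝔞)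
    (h : HH S s w ≤ UU (DL ξ g'') 𝔞 s w) :
    ∀ (g : Io S) J, (g.1 : ℕ) = s → mz 3 J + (Gam S).wt g = w → ξ g g'' J ∈ 𝔞 := by
  have step : ∀ 𝔠 : Ideal (Av (ZMod 9)),
      (∀ (g : Io S) J, (g.1 : ℕ) = s → mz 3 J + (Gam S).wt g = w → ξ g g'' J ∈ 𝔠) →
      ∀ (g : Io S) J, (g.1 : ℕ) = s → mz 3 J + (Gam S).wt g = w →
        ξ g g'' J ∈ 𝔞 ⊔ Ideal.span {(3 : Av (ZMod 9))} * 𝔠 := by
    intro 𝔠 hc g J hg hw
    obtain ⟨y, h1, h2, h3⟩ := h (hg ▸ hw ▸ bv_HH g J)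
    have h4 : bv g J - y ∈ HomG (Gam S) (gG 3 (ZMod 9)) s w :=
      sub_mem (hg ▸ hw ▸ bv_mem 3 (Gam S) (gA 3 (ZMod 9)) g J) h1
    rw [← DL_bv ξ, ← sub_add_cancel (bv g J) y, map_add]
    refine add_mem ?_ (Ideal.mem_sup_left h3)
    rw [DL_apply]
    refine sum_mem fun g0 _ => ?_
    by_cases c : (g0.1 : ℕ) = s
    · rw [lin_apply]
      refine sum_mem fun L hL => ?_
      have h5 := (nonNeg_gA 3).le (h4 g0).1 (mem_support_iff.1 hL)
      rcases h5.eq_or_lt with e | e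
      · refine Ideal.mem_sup_right (Ideal.mul_mem_mul (mem_three ?_ ?_)
          (hc g0 L c (by rw [mz, e]; ring)))
        · exact Grd.cast _ ((h4 g0).1 L) (by rw [e, sub_self])
        · have h6 := congrArg (coeff L) (congrFun (h2.trans (rho_bv g J).symm) g0)
          rw [rho, rho, coeff_map, coeff_map] at h6
          rw [Pi.sub_apply, coeff_sub, map_sub, map_sub]
          exact sub_eq_zero.2 h6.symm
      · exact Ideal.mem_sup_left (Ideal.mul_mem_left _ _ (ih g0 L c (by rw [mz]; omega)))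
    · rw [(h4 g0).2 c, map_zero]
      exact zero_mem _
  intro g J hg hw
  refine (?_ : _ ≤ 𝔞) (step _ (step ⊤ fun _ _ _ _ => trivial) g J hg hw)
  rw [Ideal.mul_sup, Ideal.mul_top, Ideal.span_singleton_mul_span_singleton,
    show (3 * 3 : Av (ZMod 9)) = 0 by
      rw [← map_ofNat (C : ZMod 9 →+* Av (ZMod 9)) 3, ← map_mul, show (3 * 3 : ZMod 9) = 0 from rfl,
        map_zero]]
  exact sup_le le_rfl (sup_le Ideal.mul_le_right (by simp))

/-- **It suffices to check the rows with `Q`.** -/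
theorem sqIn_of_rows {T0 : ℕ} (hS : S ≤ 26) (hT : T0 ≤ 97) (hH : HomD 3 (Gam S) δ)
    (hb : bar 3 r3 δ = xi0 S) {𝔞 : ℕ → Ideal (Av (ZMod 9))} (hm : Monotone 𝔞)
    (hi : ∀ s, Inv 3 (𝔞 s)) (h3 : ∀ s, ∀ a ∈ 𝔞 s, r3 (constantCoeff a) = 0)
    {Q : ℕ → ℕ → (ℕ →₀ ℕ) → Prop} (hQ : ∀ s < S, ∀ T ≤ T0, RankQ (Q s) s T (rT s T))
    (h : ∀ (g g'' : Io S) J, Q g.1 g.2 J → mz 3 J + (Gam S).wt g ≤ 2 * T0 →
      RR 3 δ δ g g'' J ∈ 𝔞 (g.1 + 1)) : SqIn 3 (Gam S) δ 𝔞 (2 * T0) := by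
  have hr : ∀ y, rho (XG 3 δ y) = LL S (rho y) := fun y => by
    rw [LL_apply, ← hb]
    exact map_XG_P 3 r3 δ y
  have hq : ∀ s g'' (T : ℕ), T ≤ T0 → ∀ (g : Io S) J, (g.1 : ℕ) = s →
      mz 3 J + (Gam S).wt g = 2 * T → Q s g.2 J →
        bv g J ∈ UU (DL (RR 3 δ δ) g'') (𝔞 (s + 1)) s (2 * T) := fun s g'' T hT g J e1 e2 e3 =>
    ⟨bv g J, e1 ▸ e2 ▸ bv_mem 3 (Gam S) (gA 3 (ZMod 9)) g J, rho_bv g J, by
      rw [DL_bv, ← e1]
      exact h g g'' J (e1 ▸ e3) (by omega)⟩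
  have key : ∀ s < S, ∀ g'' (T : ℕ), T ≤ T0 → ∀ (g : Io S) J, (g.1 : ℕ) = s →
      mz 3 J + (Gam S).wt g = 2 * T → RR 3 δ δ g g'' J ∈ 𝔞 (s + 1) := by
    intro s
    induction s with
    | zero =>
      intro hs g'' T
      induction T using Nat.strong_induction_on with
      | _ T ih =>
      intro hT'
      refine nak g'' (fun g J e1 e2 => ?_) ?_
      · obtain ⟨m, hm'⟩ := mz_even J
        exact ih (m + gw g.1 g.2) (by rw [Gam_wt] at e2; omega) (by rw [Gam_wt] at e2; omega) g J e1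
          (by rw [Gam_wt]; omega)
      · cases T with
        | succ T => exact span_zero (by omega) (hQ 0 hs _ hT') (hq 0 g'' _ hT')
        | zero =>
          have := finite_HH S (Nat.zero_le _) (Nat.zero_le 97)
          have h1 := finrank_HH S (Nat.zero_le _) (Nat.zero_le 97)
          have e0 : mz 3 0 + (Gam S).wt (Gam S).g0 = 2 * (0 : ℕ) := by
            rw [mz_zero, (Gam S).wt_g0]
            rfl
          have h2 : (bv (Gam S).g0 0 : Io S → PP 3) ∈ HH S 0 (2 * (0 : ℕ)) := e0 ▸ bv_HH _ 0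
          have h4 : (bv (Gam S).g0 0 : Io S → PP 3) ≠ 0 := by simp [bv]
          rw [← Submodule.eq_of_le_of_finrank_le ((Submodule.span_singleton_le_iff_mem _ _).2 h2)
            (by rw [finrank_span_singleton h4, ← cnt_chk00]; exact h1),
            Submodule.span_singleton_le_iff_mem]
          refine ⟨bv (Gam S).g0 0, e0 ▸ bv_mem 3 (Gam S) (gA 3 (ZMod 9)) _ 0, rho_bv _ _, ?_⟩
          rw [DL_bv, RR, Finset.sum_eq_zero fun g' _ => ?_]
          · exact zero_mem _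
          · rw [← actB_id, ← C_apply, actB_C, hH.unit, map_zero, mul_zero, map_zero]
    | succ s ihs =>
      intro hs g'' T
      have hl : ∀ (T : ℕ), T ≤ T0 → ∀ (g g' : Io S) J, (g.1 : ℕ) = s →
          mz 3 J + (Gam S).wt g ≤ 2 * T → RR 3 δ δ g g' J ∈ 𝔞 (s + 1) := fun T hT g g' J e1 e2 => by
        obtain ⟨m, hm'⟩ := mz_even J
        exact ihs (by omega) g' (m + gw g.1 g.2) (by rw [Gam_wt] at e2; omega) g J e1
          (by rw [Gam_wt]; omega)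
      induction T using Nat.strong_induction_on with
      | _ T ih =>
      intro hT'
      refine nak g'' (fun g J e1 e2 => ?_) (span_succ hs.le hS (by omega)
        (hQ s (by omega) T hT').ok (hQ _ hs T hT') (fun y hy => ?_) (hq _ g'' _ hT')
        fun g J e1 e2 => ⟨XG 3 δ (bv g J), ?_, by rw [hr, rho_bv], ?_⟩)
      · obtain ⟨m, hm'⟩ := mz_even J
        exact ih (m + gw g.1 g.2) (by rw [Gam_wt] at e2; omega) (by rw [Gam_wt] at e2; omega) g J e1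
          (by rw [Gam_wt]; omega)
      · refine HH_le (U := LinearMap.ker (LL S ∘ₗ LL S)) (fun g J e1 e2 => ?_) hy
        rw [LinearMap.mem_ker, LinearMap.comp_apply, ← rho_bv, ← hr, ← hr, XG_XG]
        funext g'
        ext L
        rw [rho, coeff_map, Pi.zero_apply, coeff_zero]
        refine h3 (s + 1) _ (mem_map_C_iff.1 (sum_mem fun g0 _ => ?_) L)
        by_cases c : g0 = g
        · subst c
          rw [bv, Pi.single_eq_same]
          refine actG_mem 3 (hi _) fun L hL => hl T hT' g0 g' L e1 ?_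
          have h5 := le_of_coeff_RG 3 (Grd.monomial_mem (wz 3) J (gA 3 (ZMod 9)).one_mem) hL
          rw [zero_add, ← mz] at h5
          omega
        · rw [bv, Pi.single_eq_of_ne c, ← actB_id, actB_zero]
          exact zero_mem _
      · exact e1 ▸ e2 ▸ XG_mem 3 (Gam S) hH (bv_mem 3 (Gam S) (gA 3 (ZMod 9)) g J)
      · exact hm (Nat.le_succ _) (DL_XG (hi _) g g'' J fun g' L hL => hl T hT' g g' L e1 (by omega))
  intro g g'' J hJ
  by_cases c : (g''.1 : ℕ) = g.1 + 2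
  · obtain ⟨m, hm'⟩ := mz_even J
    rw [Gam_wt] at hJ
    exact key g.1 (by have := g''.1.2; omega) g'' (m + gw g.1 g.2) (by omega) g J rfl
      (by rw [Gam_wt]; omega)
  · rw [RR_deg 3 hH hH c]
    exact zero_mem _

end Vale.Agent.P236N
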