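import Vale.Agent.P236C.Snd
import Vale.Agent.P236N.Cmp

/-!
# P236: the rows of the rank certificates
-/

noncomputable section

namespace Vale.Agent.P236N

open Vale.Agent.P236A Vale.Agent.P236C MvPolynomial

/-- the rows in `E` satisfy `q` -/
def rowQ (q : Nat → Nat → Bool) (r : Nat) : Nat → Bool :=
  Nat.rec (motive := fun _ => Nat → Bool) (fun _ => true)
    (fun _ ih E => Bool.rec (motive := fun _ => Bool) false (ih (Nat.shiftRight E 24))
      (q (Nat.land E 63) (Nat.land (Nat.shiftRight E 6) 262143))) r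

/-- the rows of consecutive cells satisfy `q` -/
def rowsQ (q : Nat → Nat → Bool) (RT : Nat) (l : List (Nat × Nat × Nat)) : Nat → Bool :=
  List.rec (motive := fun _ => Nat → Bool) (fun _ => true)
    (fun x _ ih T =>
      Bool.rec (motive := fun _ => Bool) false (ih (Nat.succ T)) (rowQ q (f16 RT T) x.2.1)) l

theorem gat_succQ {R : ℕ → ℕ × ℕ} {G CT W w T r E A B : ℕ} {K : ℕ → ℕ → Bool} {q : ℕ → ℕ → Bool}
    (h : gat R G CT W w T (ones W) (ones w) K (r + 1) E A B = true) (hq : rowQ q (r + 1) E = true) :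
    ∃ k < 64, ∃ n la lb, q k n = true ∧ rowQ q r (E >>> 24) = true ∧
      f8 G k + wtc n = T ∧ k < f8 CT (wtc n) ∧ la = (R n).1 >>> (W * k) &&& ones W ∧
      lb = (R n).2 >>> (W * k) &&& ones W ∧
      gat R G CT W w T (ones W) (ones w) K r (E >>> 24)
        (A <<< w ||| (ad (la &&& ones w) (lb &&& ones w) (la >>> w) (lb >>> w)).1)
        (B <<< w ||| (ad (la &&& ones w) (lb &&& ones w) (la >>> w) (lb >>> w)).2) = true := by
  rw [gat] at h
  dsimp only at h
  rw [frc_eq] at h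
  obtain ⟨h1, h2⟩ := rec_false h
  obtain ⟨h3, h4⟩ := rec_false h2
  obtain ⟨q1, q2⟩ := rec_false hq
  refine ⟨Nat.land E 63, Nat.lt_succ_of_le Nat.and_le_right, _, _, _, q1, q2,
    Nat.eq_of_beq_eq_true h1, Nat.le_of_ble_eq_true h3, rfl, rfl, ?_⟩
  have h5 : ∀ (z c : Bool), (Bool.rec (motive := fun _ => Bool) z z c : Bool) = z :=
    fun z c => by cases c <;> rfl
  exact (h5 _ _).symm.trans h4

theorem gat_specQ {R : ℕ → ℕ × ℕ} {F : ℕ → (ℕ →₀ ℕ) → Zp} {G CT W w T r0 : ℕ} {K : ℕ → ℕ → Bool}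
    {q : ℕ → ℕ → Bool} (hR : Inv' W CT R F) (hT : T ≤ 107) (hW : W ≤ 2 * w)
    (hK : ∀ A B (v : ℕ → ℕ → ZMod 3), (∀ i < r0, ∀ p < w, Cd A B (w * i + p) (v i p)) →
      K A B = true → LinearIndependent (ZMod 3) fun (i : Fin r0) (p : Fin w) => v i p)
    (r : ℕ) : ∀ (E A B t : ℕ) (k : ℕ → Fin 64) (J : ℕ → ℕ →₀ ℕ), t + r = r0 →
      (∀ i < t, Val (J i) ∧ f8 G (k i) + tw (J i) = T ∧ q (k i) (enc (J i)) = true) →
      (∀ i < t, ∀ p < w, Cd A B (w * i + p) (fv W w (F (k i) (J i)) p)) →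
      gat R G CT W w T (ones W) (ones w) K r E A B = true → rowQ q r E = true →
      ∃ (k : ℕ → Fin 64) (J : ℕ → ℕ →₀ ℕ),
        (∀ i < r0, Val (J i) ∧ f8 G (k i) + tw (J i) = T ∧ q (k i) (enc (J i)) = true) ∧
        LinearIndependent (ZMod 3) fun (i : Fin r0) (p : Fin w) => fv W w (F (k i) (J i)) p := by
  induction r with
  | zero =>
    intro E A B t k J ht hv hc h _
    obtain rfl : t = r0 := ht
    exact ⟨k, J, hv, hK A B (fun i => fv W w (F (k i) (J i))) hc h⟩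
  | succ r ih =>
    intro E A B t k J ht hv hc h hq
    obtain ⟨k0, hk0, n, la, lb, q1, q2, h1, h2, rfl, rfl, h3⟩ := gat_succQ h hq
    have hval : Val (dec n) := ⟨dec_ge n, by rw [tw_dec]; omega⟩
    have h4 := hR _ hval k0 hk0 (by rwa [tw_dec])
    rw [enc_dec] at h4
    refine ih _ _ _ (t + 1) (fun i => Nat.casesOn i ⟨k0, hk0⟩ k) (fun i => Nat.casesOn i (dec n) J)
      (by omega) (fun i hi => ?_) (fun i hi p hp => ?_) h3 q2
    · cases i with
      | zero => exact ⟨hval, by rw [← h1, ← tw_dec]; rfl, (enc_dec n).symm ▸ q1⟩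
      | succ i => exact hv i (by omega)
    · have h5 := cd_push (y := fun i => fv W w (F (k i) (J i))) hc (cd_fold hW (cd_lane h4)) i hi p hp
      cases i <;> exact h5

/-- the predicate on rows given by a test on the codes -/
def QE (q : ℕ → ℕ → Bool) (k : ℕ) (J : ℕ →₀ ℕ) : Prop := q k (enc J) = true

theorem cell_specQ {s T r w E P W CT Bs c3 c4 : ℕ} {R : ℕ → ℕ × ℕ} {q : ℕ → ℕ → Bool} (hT : T ≤ 107)
    (hR : Inv' W CT R fun k J => Lam s Bs k (tot c3 c4 (monomial J 1)))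
    (h : cell R (Gs.getD s 0) CT W T r w E P = true) (hq : rowQ q r E = true) :
    RankQ (QE q) s T r := by
  obtain ⟨h1, h2⟩ := rec_false h
  obtain ⟨k, J, hv, hl⟩ := gat_specQ hR hT (Nat.le_of_ble_eq_true h1)
    (fun A B v hv hk => elimStmt w r r P A B v le_rfl hv hk) r E 0 0 0 (fun _ => 0) (fun _ => 0)
    (Nat.zero_add r) (fun i hi => absurd hi (by omega)) (fun i hi => absurd hi (by omega)) h2 hq
  refine ⟨fun i => k i, fun i => J i, fun i => ?_, fun i => (hv i i.2).2.2,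
    LinearIndependent.of_comp (prj Bs c3 c4 W w) ?_⟩
  · rw [mz_eq (hv i i.2).1.1, gw, ← (hv i i.2).2.1]
    push_cast
    ring
  · convert hl using 1
    funext i p
    rw [lam_tot _ _ _ _ _ (hv i i.2).1.1]
    rfl

theorem cells_specQ {s W CT Bs c3 c4 : ℕ} {R : ℕ → ℕ × ℕ} {q : ℕ → ℕ → Bool}
    (hR : Inv' W CT R fun k J => Lam s Bs k (tot c3 c4 (monomial J 1)))
    (l : List (ℕ × ℕ × ℕ)) : ∀ T, cells R (Gs.getD s 0) CT W (RTs.getD s 0) l T = true →
      rowsQ q (RTs.getD s 0) l T = true →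
      ∀ T', T ≤ T' → T' < T + l.length → T' ≤ 107 → RankQ (QE q) s T' (rT s T') := by
  induction l with
  | nil =>
    intro T _ _ T' h1 h2
    rw [List.length_nil] at h2
    omega
  | cons x l ih =>
    intro T h hq T' h1 h2 h3
    obtain ⟨h4, h5⟩ := rec_false h
    obtain ⟨q1, q2⟩ := rec_false hq
    rcases Nat.eq_or_lt_of_le h1 with rfl | h6
    · exact cell_specQ h3 hR h4 q1
    · exact ih (T + 1) h5 q2 T' h6 (by rw [List.length_cons] at h2; omega) h3

/-- **soundness of the check**, with the rows -/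
theorem run_specQ {s W Bs CT c3 c4 T : ℕ} {l : List (ℕ × ℕ × ℕ)} (q : ℕ → ℕ → Bool)
    (h : run (Es.getD s 0) (Os.getD s 0) (Gs.getD s 0) (Gs.getD (s + 1) 0) (RTs.getD s 0) W Bs CT
      c3 c4 l T = true) (hq : rowsQ q (RTs.getD s 0) l T = true) :
    ∀ T', T ≤ T' → T' < T + l.length → T' ≤ 107 → RankQ (QE q) s T' (rT s T') := by
  generalize hE : Es.getD s 0 = E at h
  generalize hO : Os.getD s 0 = O at h
  generalize hG : Gs.getD s 0 = G at h
  generalize hG' : Gs.getD (s + 1) 0 = G' at h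
  generalize hR : RTs.getD s 0 = RT at h
  rw [run] at h
  obtain ⟨h1, h2⟩ := rec_false h
  obtain ⟨h3, h4⟩ := rec_false h2
  obtain ⟨h5, h6⟩ := rec_false h4
  subst hE hO hG hG' hR
  have hC := anti_of h5
  obtain ⟨⟨a1, a2, a3, a4⟩, ⟨b1, b2, b3, b4, b5, b6⟩, ⟨c1, c2, c3', c4', c5, c6⟩, d1, d2, d3, d4,
    d5⟩ := ar_all
  have q3 : ∀ J, Val J → J 3 < 3 ^ (0 + 1) := fun J hJ => by have := hJ.le; omega
  have q2 : ∀ J, Val J → J 2 < 3 ^ (1 + 1) := fun J hJ => by have := hJ.le; omega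
  have q1 : ∀ J, Val J → J 1 < 3 ^ (2 + 1) := fun J hJ => by have := hJ.le; omega
  have q0 : ∀ J, Val J → J 0 < 3 ^ (4 + 1) := fun J hJ => by have := hJ.le; omega
  have i0 := inv_ini (s := s) CT (base_of h3 h1)
  have i1 := (inv_step 0 hC (by omega) a1 (sh_id W rfl) (sh_id W rfl) (i0.start 3 2 3 0)).stop q3
  have i2 := (inv_step 0 hC (by omega) a2 (sh_sh W (c := 1) rfl) (sh_sh W (c := 2) rfl)
    (i1.start 3 1 9 1)).stop q3
  have i3 := (inv_step 0 hC (by omega) a3 (sh_sh W (c := c3) (by omega))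
    (sh_sh W (c := c3 * 2) (by omega)) (i2.start 3 0 27 c3)).stop q3
  have i4 := (inv_step 0 hC (by omega) a4 (sh_sh W (c := c4) (by omega))
    (sh_sh W (c := c4 * 2) (by omega)) (i3.start 3 0 0 c4)).stop q3
  have i5 := (inv_step 1 hC (by omega) b2 (sh_id W rfl) (sh_id W rfl)
    (inv_step 0 hC (by omega) b1 (sh_id W rfl) (sh_id W rfl) (i4.start 2 1 3 0))).stop q2
  have i6 := (inv_step 1 hC (by omega) b4 (sh_sh W (c := 3) rfl) (sh_sh W (c := 6) rfl)
    (inv_step 0 hC (by omega) b3 (sh_sh W (c := 1) rfl) (sh_sh W (c := 2) rfl)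
      (i5.start 2 0 9 1))).stop q2
  have i7 := (inv_step 1 hC (by omega) b6 (sh_sh W (c := c3 * 3) (by omega))
    (sh_sh W (c := c3 * 6) (by omega))
    (inv_step 0 hC (by omega) b5 (sh_sh W (c := c3) (by omega)) (sh_sh W (c := c3 * 2) (by omega))
      (i6.start 2 0 0 c3))).stop q2
  have i8 := (inv_step 2 hC (by omega) c3' (sh_id W rfl) (sh_id W rfl)
    (inv_step 1 hC (by omega) c2 (sh_id W rfl) (sh_id W rfl)
      (inv_step 0 hC (by omega) c1 (sh_id W rfl) (sh_id W rfl) (i7.start 1 0 3 0)))).stop q1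
  have i9 := (inv_step 2 hC (by omega) c6 (sh_sh W (c := 9) rfl) (sh_sh W (c := 18) rfl)
    (inv_step 1 hC (by omega) c5 (sh_sh W (c := 3) rfl) (sh_sh W (c := 6) rfl)
      (inv_step 0 hC (by omega) c4' (sh_sh W (c := 1) rfl) (sh_sh W (c := 2) rfl)
        (i8.start 1 0 0 1)))).stop q1
  have i10 := (inv_step 4 hC (by omega) d5 (sh_id W rfl) (sh_id W rfl)
    (inv_step 3 hC (by omega) d4 (sh_id W rfl) (sh_id W rfl)
      (inv_step 2 hC (by omega) d3 (sh_id W rfl) (sh_id W rfl)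
        (inv_step 1 hC (by omega) d2 (sh_id W rfl) (sh_id W rfl)
          (inv_step 0 hC (by omega) d1 (sh_id W rfl) (sh_id W rfl)
            (i9.start 0 0 0 0)))))).stop q0
  refine cells_specQ (Bs := Bs) (c3 := c3) (c4 := c4) ?_ l T h6 hq
  unfold InvL at i10
  simp only [LinearMap.comp_apply, AlgHom.toLinearMap_apply] at i10
  simp only [tot]
  exact i10

end Vale.Agent.P236N
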