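import Vale.Agent.P236C.All
import Vale.Agent.P236N.Rows
import Vale.Agent.P236N.Msk

/-!
# P236: the rows of the rank certificates lie in the masks
-/

namespace Vale.Agent.P236N

open Vale.Agent.P236C

theorem qA3x63 : ∀ T, 0 ≤ T → T < 0 + 64 → T ≤ 107 → RankQ (QE (qM mk3)) 3 T (rT 3 T) :=
  run_specQ _ cA3x63 (by decide +kernel)

theorem qA3x79 : ∀ T, 64 ≤ T → T < 64 + 16 → T ≤ 107 → RankQ (QE (qM mk3)) 3 T (rT 3 T) :=
  run_specQ _ cA3x79 (by decide +kernel)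

theorem qA3x84 : ∀ T, 80 ≤ T → T < 80 + 5 → T ≤ 107 → RankQ (QE (qM mk3)) 3 T (rT 3 T) :=
  run_specQ _ cA3x84 (by decide +kernel)

theorem qA3x87 : ∀ T, 85 ≤ T → T < 85 + 3 → T ≤ 107 → RankQ (QE (qM mk3)) 3 T (rT 3 T) :=
  run_specQ _ cA3x87 (by decide +kernel)

theorem qA3x89 : ∀ T, 88 ≤ T → T < 88 + 2 → T ≤ 107 → RankQ (QE (qM mk3)) 3 T (rT 3 T) :=
  run_specQ _ cA3x89 (by decide +kernel)

theorem qA3x90 : ∀ T, 90 ≤ T → T < 90 + 1 → T ≤ 107 → RankQ (QE (qM mk3)) 3 T (rT 3 T) :=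
  run_specQ _ cA3x90 (by decide +kernel)

theorem qA3x91 : ∀ T, 91 ≤ T → T < 91 + 1 → T ≤ 107 → RankQ (QE (qM mk3)) 3 T (rT 3 T) :=
  run_specQ _ cA3x91 (by decide +kernel)

theorem qA3x92 : ∀ T, 92 ≤ T → T < 92 + 1 → T ≤ 107 → RankQ (QE (qM mk3)) 3 T (rT 3 T) :=
  run_specQ _ cA3x92 (by decide +kernel)

theorem qA3x93 : ∀ T, 93 ≤ T → T < 93 + 1 → T ≤ 107 → RankQ (QE (qM mk3)) 3 T (rT 3 T) :=
  run_specQ _ cA3x93 (by decide +kernel)

theorem qA3x94 : ∀ T, 94 ≤ T → T < 94 + 1 → T ≤ 107 → RankQ (QE (qM mk3)) 3 T (rT 3 T) :=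
  run_specQ _ cA3x94 (by decide +kernel)

theorem rankQ3 (T : ℕ) (h : T ≤ 94) : RankQ (QE (qM mk3)) 3 T (rT 3 T) := by
  by_cases c63 : T < 0 + 64
  · exact qA3x63 T (by omega) c63 (by omega)
  by_cases c79 : T < 64 + 16
  · exact qA3x79 T (by omega) c79 (by omega)
  by_cases c84 : T < 80 + 5
  · exact qA3x84 T (by omega) c84 (by omega)
  by_cases c87 : T < 85 + 3
  · exact qA3x87 T (by omega) c87 (by omega)
  by_cases c89 : T < 88 + 2
  · exact qA3x89 T (by omega) c89 (by omega)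
  by_cases c90 : T < 90 + 1
  · exact qA3x90 T (by omega) c90 (by omega)
  by_cases c91 : T < 91 + 1
  · exact qA3x91 T (by omega) c91 (by omega)
  by_cases c92 : T < 92 + 1
  · exact qA3x92 T (by omega) c92 (by omega)
  by_cases c93 : T < 93 + 1
  · exact qA3x93 T (by omega) c93 (by omega)
  exact qA3x94 T (by omega) (by omega) (by omega)

theorem qA4x72 : ∀ T, 0 ≤ T → T < 0 + 73 → T ≤ 107 → RankQ (QE (qM mk4)) 4 T (rT 4 T) :=
  run_specQ _ cA4x72 (by decide +kernel)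

theorem qA4x80 : ∀ T, 73 ≤ T → T < 73 + 8 → T ≤ 107 → RankQ (QE (qM mk4)) 4 T (rT 4 T) :=
  run_specQ _ cA4x80 (by decide +kernel)

theorem qA4x84 : ∀ T, 81 ≤ T → T < 81 + 4 → T ≤ 107 → RankQ (QE (qM mk4)) 4 T (rT 4 T) :=
  run_specQ _ cA4x84 (by decide +kernel)

theorem qA4x86 : ∀ T, 85 ≤ T → T < 85 + 2 → T ≤ 107 → RankQ (QE (qM mk4)) 4 T (rT 4 T) :=
  run_specQ _ cA4x86 (by decide +kernel)

theorem qA4x88 : ∀ T, 87 ≤ T → T < 87 + 2 → T ≤ 107 → RankQ (QE (qM mk4)) 4 T (rT 4 T) :=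
  run_specQ _ cA4x88 (by decide +kernel)

theorem qA4x89 : ∀ T, 89 ≤ T → T < 89 + 1 → T ≤ 107 → RankQ (QE (qM mk4)) 4 T (rT 4 T) :=
  run_specQ _ cA4x89 (by decide +kernel)

theorem qA4x90 : ∀ T, 90 ≤ T → T < 90 + 1 → T ≤ 107 → RankQ (QE (qM mk4)) 4 T (rT 4 T) :=
  run_specQ _ cA4x90 (by decide +kernel)

theorem qA4x91 : ∀ T, 91 ≤ T → T < 91 + 1 → T ≤ 107 → RankQ (QE (qM mk4)) 4 T (rT 4 T) :=
  run_specQ _ cA4x91 (by decide +kernel)

theorem qA4x92 : ∀ T, 92 ≤ T → T < 92 + 1 → T ≤ 107 → RankQ (QE (qM mk4)) 4 T (rT 4 T) :=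
  run_specQ _ cA4x92 (by decide +kernel)

theorem qA4x93 : ∀ T, 93 ≤ T → T < 93 + 1 → T ≤ 107 → RankQ (QE (qM mk4)) 4 T (rT 4 T) :=
  run_specQ _ cA4x93 (by decide +kernel)

theorem qA4x94 : ∀ T, 94 ≤ T → T < 94 + 1 → T ≤ 107 → RankQ (QE (qM mk4)) 4 T (rT 4 T) :=
  run_specQ _ cA4x94 (by decide +kernel)

theorem rankQ4 (T : ℕ) (h : T ≤ 94) : RankQ (QE (qM mk4)) 4 T (rT 4 T) := by
  by_cases c72 : T < 0 + 73
  · exact qA4x72 T (by omega) c72 (by omega)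
  by_cases c80 : T < 73 + 8
  · exact qA4x80 T (by omega) c80 (by omega)
  by_cases c84 : T < 81 + 4
  · exact qA4x84 T (by omega) c84 (by omega)
  by_cases c86 : T < 85 + 2
  · exact qA4x86 T (by omega) c86 (by omega)
  by_cases c88 : T < 87 + 2
  · exact qA4x88 T (by omega) c88 (by omega)
  by_cases c89 : T < 89 + 1
  · exact qA4x89 T (by omega) c89 (by omega)
  by_cases c90 : T < 90 + 1
  · exact qA4x90 T (by omega) c90 (by omega)
  by_cases c91 : T < 91 + 1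
  · exact qA4x91 T (by omega) c91 (by omega)
  by_cases c92 : T < 92 + 1
  · exact qA4x92 T (by omega) c92 (by omega)
  by_cases c93 : T < 93 + 1
  · exact qA4x93 T (by omega) c93 (by omega)
  exact qA4x94 T (by omega) (by omega) (by omega)

end Vale.Agent.P236N
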