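import Vale.Agent.P236C.All
import Vale.Agent.P236N.Rows
import Vale.Agent.P236N.Msk

/-!
# P236: the rows of the rank certificates lie in the masks
-/

namespace Vale.Agent.P236N

open Vale.Agent.P236C

theorem qA5x60 : ∀ T, 0 ≤ T → T < 0 + 61 → T ≤ 107 → RankQ (QE (qM mk5)) 5 T (rT 5 T) :=
  run_specQ _ cA5x60 (by decide +kernel)

theorem qA5x80 : ∀ T, 61 ≤ T → T < 61 + 20 → T ≤ 107 → RankQ (QE (qM mk5)) 5 T (rT 5 T) :=
  run_specQ _ cA5x80 (by decide +kernel)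

theorem qA5x85 : ∀ T, 81 ≤ T → T < 81 + 5 → T ≤ 107 → RankQ (QE (qM mk5)) 5 T (rT 5 T) :=
  run_specQ _ cA5x85 (by decide +kernel)

theorem qA5x88 : ∀ T, 86 ≤ T → T < 86 + 3 → T ≤ 107 → RankQ (QE (qM mk5)) 5 T (rT 5 T) :=
  run_specQ _ cA5x88 (by decide +kernel)

theorem qA5x90 : ∀ T, 89 ≤ T → T < 89 + 2 → T ≤ 107 → RankQ (QE (qM mk5)) 5 T (rT 5 T) :=
  run_specQ _ cA5x90 (by decide +kernel)

theorem qA5x91 : ∀ T, 91 ≤ T → T < 91 + 1 → T ≤ 107 → RankQ (QE (qM mk5)) 5 T (rT 5 T) :=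
  run_specQ _ cA5x91 (by decide +kernel)

theorem qA5x92 : ∀ T, 92 ≤ T → T < 92 + 1 → T ≤ 107 → RankQ (QE (qM mk5)) 5 T (rT 5 T) :=
  run_specQ _ cA5x92 (by decide +kernel)

theorem qA5x93 : ∀ T, 93 ≤ T → T < 93 + 1 → T ≤ 107 → RankQ (QE (qM mk5)) 5 T (rT 5 T) :=
  run_specQ _ cA5x93 (by decide +kernel)

theorem qA5x94 : ∀ T, 94 ≤ T → T < 94 + 1 → T ≤ 107 → RankQ (QE (qM mk5)) 5 T (rT 5 T) :=
  run_specQ _ cA5x94 (by decide +kernel)

theorem rankQ5 (T : ℕ) (h : T ≤ 94) : RankQ (QE (qM mk5)) 5 T (rT 5 T) := by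
  by_cases c60 : T < 0 + 61
  · exact qA5x60 T (by omega) c60 (by omega)
  by_cases c80 : T < 61 + 20
  · exact qA5x80 T (by omega) c80 (by omega)
  by_cases c85 : T < 81 + 5
  · exact qA5x85 T (by omega) c85 (by omega)
  by_cases c88 : T < 86 + 3
  · exact qA5x88 T (by omega) c88 (by omega)
  by_cases c90 : T < 89 + 2
  · exact qA5x90 T (by omega) c90 (by omega)
  by_cases c91 : T < 91 + 1
  · exact qA5x91 T (by omega) c91 (by omega)
  by_cases c92 : T < 92 + 1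
  · exact qA5x92 T (by omega) c92 (by omega)
  by_cases c93 : T < 93 + 1
  · exact qA5x93 T (by omega) c93 (by omega)
  exact qA5x94 T (by omega) (by omega) (by omega)

theorem qA6x67 : ∀ T, 0 ≤ T → T < 0 + 68 → T ≤ 107 → RankQ (QE (qM mk6)) 6 T (rT 6 T) :=
  run_specQ _ cA6x67 (by decide +kernel)

theorem qA6x84 : ∀ T, 68 ≤ T → T < 68 + 17 → T ≤ 107 → RankQ (QE (qM mk6)) 6 T (rT 6 T) :=
  run_specQ _ cA6x84 (by decide +kernel)

theorem qA6x89 : ∀ T, 85 ≤ T → T < 85 + 5 → T ≤ 107 → RankQ (QE (qM mk6)) 6 T (rT 6 T) :=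
  run_specQ _ cA6x89 (by decide +kernel)

theorem qA6x92 : ∀ T, 90 ≤ T → T < 90 + 3 → T ≤ 107 → RankQ (QE (qM mk6)) 6 T (rT 6 T) :=
  run_specQ _ cA6x92 (by decide +kernel)

theorem qA6x94 : ∀ T, 93 ≤ T → T < 93 + 2 → T ≤ 107 → RankQ (QE (qM mk6)) 6 T (rT 6 T) :=
  run_specQ _ cA6x94 (by decide +kernel)

theorem rankQ6 (T : ℕ) (h : T ≤ 94) : RankQ (QE (qM mk6)) 6 T (rT 6 T) := by
  by_cases c67 : T < 0 + 68
  · exact qA6x67 T (by omega) c67 (by omega)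
  by_cases c84 : T < 68 + 17
  · exact qA6x84 T (by omega) c84 (by omega)
  by_cases c89 : T < 85 + 5
  · exact qA6x89 T (by omega) c89 (by omega)
  by_cases c92 : T < 90 + 3
  · exact qA6x92 T (by omega) c92 (by omega)
  exact qA6x94 T (by omega) (by omega) (by omega)

theorem qA7x81 : ∀ T, 0 ≤ T → T < 0 + 82 → T ≤ 107 → RankQ (QE (qM mk7)) 7 T (rT 7 T) :=
  run_specQ _ cA7x81 (by decide +kernel)

theorem qA7x90 : ∀ T, 82 ≤ T → T < 82 + 9 → T ≤ 107 → RankQ (QE (qM mk7)) 7 T (rT 7 T) :=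
  run_specQ _ cA7x90 (by decide +kernel)

theorem qA7x94 : ∀ T, 91 ≤ T → T < 91 + 4 → T ≤ 107 → RankQ (QE (qM mk7)) 7 T (rT 7 T) :=
  run_specQ _ cA7x94 (by decide +kernel)

theorem rankQ7 (T : ℕ) (h : T ≤ 94) : RankQ (QE (qM mk7)) 7 T (rT 7 T) := by
  by_cases c81 : T < 0 + 82
  · exact qA7x81 T (by omega) c81 (by omega)
  by_cases c90 : T < 82 + 9
  · exact qA7x90 T (by omega) c90 (by omega)
  exact qA7x94 T (by omega) (by omega) (by omega)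

theorem qA8x65 : ∀ T, 0 ≤ T → T < 0 + 66 → T ≤ 107 → RankQ (QE (qM mk8)) 8 T (rT 8 T) :=
  run_specQ _ cA8x65 (by decide +kernel)

theorem qA8x86 : ∀ T, 66 ≤ T → T < 66 + 21 → T ≤ 107 → RankQ (QE (qM mk8)) 8 T (rT 8 T) :=
  run_specQ _ cA8x86 (by decide +kernel)

theorem qA8x91 : ∀ T, 87 ≤ T → T < 87 + 5 → T ≤ 107 → RankQ (QE (qM mk8)) 8 T (rT 8 T) :=
  run_specQ _ cA8x91 (by decide +kernel)

theorem qA8x94 : ∀ T, 92 ≤ T → T < 92 + 3 → T ≤ 107 → RankQ (QE (qM mk8)) 8 T (rT 8 T) :=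
  run_specQ _ cA8x94 (by decide +kernel)

theorem rankQ8 (T : ℕ) (h : T ≤ 94) : RankQ (QE (qM mk8)) 8 T (rT 8 T) := by
  by_cases c65 : T < 0 + 66
  · exact qA8x65 T (by omega) c65 (by omega)
  by_cases c86 : T < 66 + 21
  · exact qA8x86 T (by omega) c86 (by omega)
  by_cases c91 : T < 87 + 5
  · exact qA8x91 T (by omega) c91 (by omega)
  exact qA8x94 T (by omega) (by omega) (by omega)

end Vale.Agent.P236N
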