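import Vale.Agent.P236C.All
import Vale.Agent.P236N.Rows
import Vale.Agent.P236N.Msk

/-!
# P236: the rows of the rank certificates lie in the masks
-/

namespace Vale.Agent.P236N

open Vale.Agent.P236C

theorem qA9x71 : ∀ T, 0 ≤ T → T < 0 + 72 → T ≤ 107 → RankQ (QE (qM mk9)) 9 T (rT 9 T) :=
  run_specQ _ cA9x71 (by decide +kernel)

theorem qA9x89 : ∀ T, 72 ≤ T → T < 72 + 18 → T ≤ 107 → RankQ (QE (qM mk9)) 9 T (rT 9 T) :=
  run_specQ _ cA9x89 (by decide +kernel)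

theorem qA9x94 : ∀ T, 90 ≤ T → T < 90 + 5 → T ≤ 107 → RankQ (QE (qM mk9)) 9 T (rT 9 T) :=
  run_specQ _ cA9x94 (by decide +kernel)

theorem rankQ9 (T : ℕ) (h : T ≤ 94) : RankQ (QE (qM mk9)) 9 T (rT 9 T) := by
  by_cases c71 : T < 0 + 72
  · exact qA9x71 T (by omega) c71 (by omega)
  by_cases c89 : T < 72 + 18
  · exact qA9x89 T (by omega) c89 (by omega)
  exact qA9x94 T (by omega) (by omega) (by omega)

theorem qA10x78 : ∀ T, 0 ≤ T → T < 0 + 79 → T ≤ 107 → RankQ (QE (qM mk10)) 10 T (rT 10 T) :=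
  run_specQ _ cA10x78 (by decide +kernel)

theorem qA10x90 : ∀ T, 79 ≤ T → T < 79 + 12 → T ≤ 107 → RankQ (QE (qM mk10)) 10 T (rT 10 T) :=
  run_specQ _ cA10x90 (by decide +kernel)

theorem qA10x94 : ∀ T, 91 ≤ T → T < 91 + 4 → T ≤ 107 → RankQ (QE (qM mk10)) 10 T (rT 10 T) :=
  run_specQ _ cA10x94 (by decide +kernel)

theorem rankQ10 (T : ℕ) (h : T ≤ 94) : RankQ (QE (qM mk10)) 10 T (rT 10 T) := by
  by_cases c78 : T < 0 + 79
  · exact qA10x78 T (by omega) c78 (by omega)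
  by_cases c90 : T < 79 + 12
  · exact qA10x90 T (by omega) c90 (by omega)
  exact qA10x94 T (by omega) (by omega) (by omega)

theorem qA11x85 : ∀ T, 0 ≤ T → T < 0 + 86 → T ≤ 107 → RankQ (QE (qM mk11)) 11 T (rT 11 T) :=
  run_specQ _ cA11x85 (by decide +kernel)

theorem qA11x94 : ∀ T, 86 ≤ T → T < 86 + 9 → T ≤ 107 → RankQ (QE (qM mk11)) 11 T (rT 11 T) :=
  run_specQ _ cA11x94 (by decide +kernel)

theorem rankQ11 (T : ℕ) (h : T ≤ 94) : RankQ (QE (qM mk11)) 11 T (rT 11 T) := by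
  by_cases c85 : T < 0 + 86
  · exact qA11x85 T (by omega) c85 (by omega)
  exact qA11x94 T (by omega) (by omega) (by omega)

theorem qA12x82 : ∀ T, 0 ≤ T → T < 0 + 83 → T ≤ 107 → RankQ (QE (qM mk12)) 12 T (rT 12 T) :=
  run_specQ _ cA12x82 (by decide +kernel)

theorem qA12x94 : ∀ T, 83 ≤ T → T < 83 + 12 → T ≤ 107 → RankQ (QE (qM mk12)) 12 T (rT 12 T) :=
  run_specQ _ cA12x94 (by decide +kernel)

theorem rankQ12 (T : ℕ) (h : T ≤ 94) : RankQ (QE (qM mk12)) 12 T (rT 12 T) := by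
  by_cases c82 : T < 0 + 83
  · exact qA12x82 T (by omega) c82 (by omega)
  exact qA12x94 T (by omega) (by omega) (by omega)

theorem qA13x94 : ∀ T, 0 ≤ T → T < 0 + 95 → T ≤ 107 → RankQ (QE (qM mk13)) 13 T (rT 13 T) :=
  run_specQ _ cA13x94 (by decide +kernel)

theorem rankQ13 (T : ℕ) (h : T ≤ 94) : RankQ (QE (qM mk13)) 13 T (rT 13 T) := by
  exact qA13x94 T (by omega) (by omega) (by omega)

theorem qA14x94 : ∀ T, 0 ≤ T → T < 0 + 95 → T ≤ 107 → RankQ (QE (qM mk14)) 14 T (rT 14 T) :=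
  run_specQ _ cA14x94 (by decide +kernel)

theorem rankQ14 (T : ℕ) (h : T ≤ 94) : RankQ (QE (qM mk14)) 14 T (rT 14 T) := by
  exact qA14x94 T (by omega) (by omega) (by omega)

theorem qA15x94 : ∀ T, 0 ≤ T → T < 0 + 95 → T ≤ 107 → RankQ (QE (qM mk15)) 15 T (rT 15 T) :=
  run_specQ _ cA15x94 (by decide +kernel)

theorem rankQ15 (T : ℕ) (h : T ≤ 94) : RankQ (QE (qM mk15)) 15 T (rT 15 T) := by
  exact qA15x94 T (by omega) (by omega) (by omega)

theorem qA16x94 : ∀ T, 0 ≤ T → T < 0 + 95 → T ≤ 107 → RankQ (QE (qM mk16)) 16 T (rT 16 T) :=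
  run_specQ _ cA16x94 (by decide +kernel)

theorem rankQ16 (T : ℕ) (h : T ≤ 94) : RankQ (QE (qM mk16)) 16 T (rT 16 T) := by
  exact qA16x94 T (by omega) (by omega) (by omega)

theorem qA17x94 : ∀ T, 0 ≤ T → T < 0 + 95 → T ≤ 107 → RankQ (QE (qM mk17)) 17 T (rT 17 T) :=
  run_specQ _ cA17x94 (by decide +kernel)

theorem rankQ17 (T : ℕ) (h : T ≤ 94) : RankQ (QE (qM mk17)) 17 T (rT 17 T) := by
  exact qA17x94 T (by omega) (by omega) (by omega)

theorem qA18x94 : ∀ T, 0 ≤ T → T < 0 + 95 → T ≤ 107 → RankQ (QE (qM mk18)) 18 T (rT 18 T) :=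
  run_specQ _ cA18x94 (by decide +kernel)

theorem rankQ18 (T : ℕ) (h : T ≤ 94) : RankQ (QE (qM mk18)) 18 T (rT 18 T) := by
  exact qA18x94 T (by omega) (by omega) (by omega)

theorem qA19x94 : ∀ T, 0 ≤ T → T < 0 + 95 → T ≤ 107 → RankQ (QE (qM mk19)) 19 T (rT 19 T) :=
  run_specQ _ cA19x94 (by decide +kernel)

theorem rankQ19 (T : ℕ) (h : T ≤ 94) : RankQ (QE (qM mk19)) 19 T (rT 19 T) := by
  exact qA19x94 T (by omega) (by omega) (by omega)

theorem qA20x94 : ∀ T, 0 ≤ T → T < 0 + 95 → T ≤ 107 → RankQ (QE (qM mk20)) 20 T (rT 20 T) :=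
  run_specQ _ cA20x94 (by decide +kernel)

theorem rankQ20 (T : ℕ) (h : T ≤ 94) : RankQ (QE (qM mk20)) 20 T (rT 20 T) := by
  exact qA20x94 T (by omega) (by omega) (by omega)

theorem qA21x94 : ∀ T, 0 ≤ T → T < 0 + 95 → T ≤ 107 → RankQ (QE (qM mk21)) 21 T (rT 21 T) :=
  run_specQ _ cA21x94 (by decide +kernel)

theorem rankQ21 (T : ℕ) (h : T ≤ 94) : RankQ (QE (qM mk21)) 21 T (rT 21 T) := by
  exact qA21x94 T (by omega) (by omega) (by omega)

theorem qA22x94 : ∀ T, 0 ≤ T → T < 0 + 95 → T ≤ 107 → RankQ (QE (qM mk22)) 22 T (rT 22 T) :=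
  run_specQ _ cA22x94 (by decide +kernel)

theorem rankQ22 (T : ℕ) (h : T ≤ 94) : RankQ (QE (qM mk22)) 22 T (rT 22 T) := by
  exact qA22x94 T (by omega) (by omega) (by omega)

end Vale.Agent.P236N
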