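import Vale.Agent.P236N.RQ0
import Vale.Agent.P236N.RQ1
import Vale.Agent.P236N.RQ2
import Vale.Agent.P236N.RQ3

/-!
# P236: `δ ∘ δ ∈ 𝔞` from the rows in the masks
-/

namespace Vale.Agent.P236N

open Vale.Agent.P236A Vale.Agent.P236C Vale.Agent.P236T MvPolynomial

theorem rankQ {s : ℕ} (hs : s < 23) (T : ℕ) (h : T ≤ 94) :
    RankQ (QE (qM (MK s))) s T (rT s T) := by
  interval_cases s
  · exact rankQ0 T h
  · exact rankQ1 T h
  · exact rankQ2 T h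
  · exact rankQ3 T h
  · exact rankQ4 T h
  · exact rankQ5 T h
  · exact rankQ6 T h
  · exact rankQ7 T h
  · exact rankQ8 T h
  · exact rankQ9 T h
  · exact rankQ10 T h
  · exact rankQ11 T h
  · exact rankQ12 T h
  · exact rankQ13 T h
  · exact rankQ14 T h
  · exact rankQ15 T h
  · exact rankQ16 T h
  · exact rankQ17 T h
  · exact rankQ18 T h
  · exact rankQ19 T h
  · exact rankQ20 T h
  · exact rankQ21 T h
  · exact rankQ22 T h

/-- the row `t ^ K e` of the level `s` has to be checked -/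
def InM (s e : ℕ) (K : ℕ →₀ ℕ) : Prop := (mrow (MK s) e (K 2 + 8 * K 3) (K 1)).testBit (K 0) = true

theorem inM_of {s e : ℕ} {K : ℕ →₀ ℕ} (hK : mz 3 K ≤ 188) (h : QE (qM (MK s)) e K) : InM s e K := by
  have h1 := eq_mon4 (J := K) (by omega)
  have h2 := mz_mon4 (K 0) (K 1) (K 2) (K 3)
  rw [← h1] at h2
  have b0 : K 0 ≤ 94 ∧ K 1 ≤ 23 ∧ K 2 ≤ 7 := by omega
  have q1 : enc K / 243 = K 1 + 27 * K 2 + 243 * K 3 := by
    rw [enc]
    omega
  have q2 : enc K / 6561 = K 2 + 9 * K 3 := by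
    rw [show 6561 = 243 * 27 from rfl, ← Nat.div_div_eq_div_mul, q1]
    omega
  have q3 : enc K / 59049 = K 3 := by
    rw [show 59049 = 6561 * 9 from rfl, ← Nat.div_div_eq_div_mul, q2]
    omega
  have e0 : Nat.mod (enc K) 243 = K 0 := by
    change enc K % 243 = _
    rw [enc]
    omega
  have e1 : Nat.mod (Nat.div (enc K) 243) 27 = K 1 := by
    change enc K / 243 % 27 = _
    rw [q1]
    omega
  have e2 : Nat.add (Nat.mod (Nat.div (enc K) 6561) 9) (Nat.mul 8 (Nat.div (enc K) 59049)) =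
      K 2 + 8 * K 3 := by
    change enc K / 6561 % 9 + 8 * (enc K / 59049) = _
    rw [q2, q3]
    omega
  rw [QE, qM, P236X.force_eq, P236X.force_eq, P236X.force_eq, e0, e1, e2, Nat.beq_eq] at h
  rw [InM, Nat.testBit, Nat.and_comm]
  exact bne_iff_ne.2 fun c => one_ne_zero (h.symm.trans c)

/-- **It suffices to check the rows in the masks.** -/
theorem sqIn_rows {S T0 : ℕ} (hS : S ≤ 23) (hT : T0 ≤ 94) {δ : Mat (Io S) (Av (ZMod 9))}
    (hH : HomD 3 (Gam S) δ) (hb : bar 3 r3 δ = xi0 S) {𝔞 : ℕ → Ideal (Av (ZMod 9))}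
    (hm : Monotone 𝔞) (hi : ∀ s, Inv 3 (𝔞 s)) (h3 : ∀ s, ∀ a ∈ 𝔞 s, r3 (constantCoeff a) = 0)
    (h : ∀ (g g'' : Io S) K, InM g.1 g.2 K → mz 3 K + (Gam S).wt g ≤ 2 * T0 →
      RR 3 δ δ g g'' K ∈ 𝔞 (g.1 + 1)) : SqIn 3 (Gam S) δ 𝔞 (2 * T0) :=
  sqIn_of_rows (by omega) (by omega) hH hb hm hi h3 (Q := fun s => QE (qM (MK s)))
    (fun s hs T h => rankQ (by omega) T (by omega))
    fun g g'' K h1 h2 => h g g'' K (inM_of (by omega) h1) h2

/-- the same for the ideals `(3 v_1 ^ a, v_1 ^ N)` -/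
theorem sqIn_rows_JJ {S T0 : ℕ} (hS : S ≤ 23) (hT : T0 ≤ 94) {δ : Mat (Io S) (Av (ZMod 9))}
    (hH : HomD 3 (Gam S) δ) (hb : bar 3 r3 δ = xi0 S) {a N : ℕ → ℕ} (ha : Antitone a)
    (hN : Antitone N) (haN : ∀ s, a s < N s)
    (h : ∀ (g g'' : Io S) K, InM g.1 g.2 K → mz 3 K + (Gam S).wt g ≤ 2 * T0 →
      RR 3 δ δ g g'' K ∈ P236B.JJ 3 (ZMod 9) (a (g.1 + 1)) (N (g.1 + 1))) :
    SqIn 3 (Gam S) δ (fun s => P236B.JJ 3 (ZMod 9) (a s) (N s)) (2 * T0) :=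
  sqIn_rows hS hT hH hb (fun _ _ h => P236B.JJ_mono 3 (ha h) (hN h))
    (fun s => P236B.inv_JJ 3 (by decide) (.inl (haN s)))
    (fun s _ hr => P236B.red_JJ 3 r3 (by have := haN s; omega) hr) h

end Vale.Agent.P236N
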