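import Vale.Agent.P236N.Del
import Vale.Agent.P236X.Sem2

/-!
# P236: the matrix given by lists of columns is homogeneous
-/

noncomputable section

namespace Vale.Agent.P236N

open Vale.Agent.P236A Vale.Agent.P236C Vale.Agent.P236X MvPolynomial

section Rel

variable {A O A' O' : Type} {R : Alg A O} {R' : Alg A' O'} {P : A → A' → Prop} {Q : O → O' → Prop}

theorem gV_rel (hc : ∀ m a a', m < 65535 → P a a' → P (R.cns m a) (R'.cns m a')) (n r : ℕ) {a : A}
    {a' : A'} (h : P a a') :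
    (R.gV n r a).1 = (R'.gV n r a').1 ∧ P (R.gV n r a).2 (R'.gV n r a').2 := by
  induction n generalizing r a a' with
  | zero => exact ⟨rfl, h⟩
  | succ n ih =>
    rw [Alg.gV, Alg.gV]
    split_ifs with h1
    · exact ⟨rfl, h⟩
    · exact ih _ (hc _ _ _ (by omega) h)

theorem sV_rel (hc : ∀ m a a', m < 65535 → P a a' → P (R.cns m a) (R'.cns m a'))
    (hs : ∀ a a' b b', P a a' → P b b' → P (R.sep a b) (R'.sep a' b')) (n r : ℕ) {a b : A}
    {a' b' : A'} (h : P a a') (h' : P b b') :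
    (R.sV n r a b).1 = (R'.sV n r a' b').1 ∧ P (R.sV n r a b).2 (R'.sV n r a' b').2 := by
  induction n generalizing r a a' b b' with
  | zero => exact ⟨rfl, h'⟩
  | succ n ih =>
    have h1 := gV_rel hc 512 r h
    rw [Alg.sV, Alg.sV, ← h1.1]
    exact ih _ h1.2 (hs _ _ _ _ h' h1.2)

/-- Relations are preserved by reading a row. -/
theorem row_rel (hz : P R.zA R'.zA) (hO : Q R.zO R'.zO)
    (hc : ∀ m a a', m < 65535 → P a a' → P (R.cns m a) (R'.cns m a'))
    (hs : ∀ a a' b b', P a a' → P b b' → P (R.sep a b) (R'.sep a' b'))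
    (hf : ∀ o o' a a', Q o o' → P a a' → Q (R.flu o a) (R'.flu o' a')) (r : ℕ) :
    Q (R.row r) (R'.row r) := by
  have h : ∀ n r o o', Q o o' → Q (R.rV n r o) (R'.rV n r o') := fun n => by
    induction n with
    | zero => exact fun _ _ _ h => h
    | succ n ih =>
      intro r o o' h
      rw [Alg.rV, Alg.rV]
      split_ifs with h1
      · exact h
      · have h2 := sV_rel hc hs (r % 65536) (r >>> 16) hz hz
        rw [← h2.1]
        exact ih _ _ _ (hf _ _ _ _ h h2.2)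
  exact h _ _ _ _ hO

end Rel

section Ev

variable {M M' : Type} [AddCommMonoid M] [AddCommMonoid M']

theorem evM_rel {P : M → M' → Prop} (h0 : P 0 0)
    (ha : ∀ a a' b b', P a a' → P b b' → P (a + b) (a' + b')) {Θ : ℕ → M} {Θ' : ℕ → M'}
    (h : ∀ m < 65535, P (Θ m) (Θ' m)) (r : ℕ) : P (evM Θ r) (evM Θ' r) :=
  row_rel (R := algF Θ (· + ·)) (R' := algF Θ' (· + ·)) (P := P) (Q := P) h0 h0
    (fun m _ _ hm h1 => ha _ _ _ _ h1 (h m hm)) ha ha r

theorem map_evM {F : Type} [FunLike F M M'] [AddMonoidHomClass F M M'] (f : F) (Θ : ℕ → M) (r : ℕ) :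
    f (evM Θ r) = evM (fun m => f (Θ m)) r :=
  evM_rel (P := fun a b => f a = b) (map_zero f)
    (fun _ _ _ _ h h' => by rw [map_add, h, h']) (fun _ _ => rfl) r

theorem evM_mem {σ : Type} [SetLike σ M] [AddSubmonoidClass σ M] {U : σ} {Θ : ℕ → M}
    (h : ∀ m < 65535, Θ m ∈ U) (r : ℕ) : evM Θ r ∈ U :=
  evM_rel (P := fun a _ => a ∈ U) (Θ' := Θ) (zero_mem U) (fun _ _ _ _ => add_mem) h r

/-- If the weight of a row vanishes, only columns of weight zero matter. -/
theorem evM_mem_of {σ : Type} [SetLike σ M] [AddSubmonoidClass σ M] {U : σ} {Θ : ℕ → M}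
    {w : ℕ → ℕ} (h : ∀ m < 65535, w m = 0 → Θ m ∈ U) {r : ℕ} (hr : evM w r = 0) : evM Θ r ∈ U :=
  evM_rel (P := fun (a : ℕ) b => a = 0 → b ∈ U) (fun _ => zero_mem U)
    (fun _ _ _ _ h1 h2 h3 => add_mem (h1 (by omega)) (h2 (by omega))) h r hr

end Ev

/-- the operations on boxes -/
def algB : Alg Ac Ou := ⟨zA, zO, cns, sep, flu⟩

theorem g1_iter (k : ℕ → Ac → Ou) (n r : ℕ) (a : Ac) :
    (g1 k)^[n] k r a = k (algB.gV n r a).1 (algB.gV n r a).2 := by
  induction n generalizing r a with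
  | zero => rfl
  | succ n ih =>
    have h : Nat.land r 65535 = r % 65536 := Nat.and_two_pow_sub_one_eq_mod r 16
    rw [Function.iterate_succ_apply', g1, Alg.gV, h]
    cases r % 65536 with
    | zero => rfl
    | succ m => exact ih _ _

theorem gL_eq (k : ℕ → Ac → Ou) (r : ℕ) (a : Ac) :
    gL k r a = k (algB.gV 512 r a).1 (algB.gV 512 r a).2 := by
  have h : ∀ n : ℕ, (Nat.rec (motive := fun _ => ℕ → Ac → Ou) k (g8 k) n) = (g1 k)^[8 * n] k :=
    fun n => by
      induction n with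
      | zero => rfl
      | succ n ih =>
        rw [Nat.mul_succ, Nat.add_comm (8 * n), Function.iterate_add_apply, ← ih]
        rfl
  rw [gL, h, g1_iter]

theorem sS_rec (K : ℕ → Ou → Ou) (o : Ou) (m r : ℕ) (a b : Ac) :
    Nat.rec (motive := fun _ => ℕ → Ac → Ac → Ou) (sS 0 (rK K o)) sS m r a b =
      K (algB.sV (m + 1) r a b).1 (flu o (algB.sV (m + 1) r a b).2) := by
  induction m generalizing r a b with
  | zero => exact gL_eq _ _ _
  | succ m ih => exact (gL_eq _ _ _).trans (ih _ _ _)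

theorem rowO_eq (r : ℕ) : rowO r = algB.row r := by
  have h : ∀ (n r : ℕ) (o : Ou), Nat.rec (motive := fun _ => ℕ → Ou → Ou) (fun _ out => out) rS n r o =
      algB.rV n r o := fun n => by
    induction n with
    | zero => exact fun _ _ => rfl
    | succ n ih =>
      intro r o
      have h : Nat.land r 65535 = r % 65536 := Nat.and_two_pow_sub_one_eq_mod r 16
      change rS n _ r o = _
      rw [rS, Alg.rV, h]
      cases r % 65536 with
      | zero => rfl
      | succ m => exact (sS_rec _ _ _ _ _ _).trans (ih _ _)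
  exact h 64 r zO

theorem rowO_ev (r : ℕ) (Θ : ℕ → ℕ) (fl : ℕ → ℕ → ℕ) : (rowO r).1 Θ fl = (algF Θ fl).row r := by
  rw [rowO_eq]
  exact row_rel (R := algB) (R' := algF Θ fl) (P := fun a b => a.1 Θ = b)
    (Q := fun o b => o.1 Θ fl = b) rfl rfl (fun _ _ _ _ h => h ▸ rfl)
    (fun _ _ _ _ h h' => h ▸ h' ▸ rfl) (fun _ _ _ _ h h' => h ▸ h' ▸ rfl) r

theorem rowO_add (r : ℕ) (Θ : ℕ → ℕ) : (rowO r).1 Θ Nat.add = evM Θ r := rowO_ev r Θ Nat.add

theorem cv_spec {g t m : ℕ} (h : cv g t m = true) :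
    g + (c1 m + 4 * c2 g t m + 13 * c3 m + 40 * c4 m) = t := by
  rw [cv, Bool.and_eq_true, Bool.and_eq_true] at h
  have h1 : g + c1 m + 13 * c3 m + 40 * c4 m ≤ t := Nat.le_of_ble_eq_true h.1.1
  have h2 : (t - (g + c1 m + 13 * c3 m + 40 * c4 m)) % 4 = 0 := Nat.eq_of_beq_eq_true h.1.2
  have h3 : c2 g t m = (t - (g + c1 m + 13 * c3 m + 40 * c4 m)) / 4 := rfl
  omega

theorem cv_four {g t m : ℕ} (h : cv g t m = true) : c4 m = 0 := by
  rw [cv, Bool.and_eq_true] at h
  exact Nat.eq_of_beq_eq_true h.2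

/-- the table of the degrees is correct -/
def gtO2 (s : Nat) (L : Lw) : Bool := allN (fun k => Nat.beq (gtw L k) (gw (Nat.succ s) k)) 64

theorem gtO2_spec {s : ℕ} {L : Lw} (h : gtO2 s L = true) : ∀ k < 64, gtw L k = gw (s + 1) k :=
  fun _ hk => Nat.eq_of_beq_eq_true (allN_spec h hk)

theorem dRow2_mem (L : Lw) (k t r : ℕ) :
    dRow2 L k t r ∈ (gA 3 K9).G (2 * (t : ℤ) - (2 * gtw L k : ℕ)) := by
  refine evM_mem (fun m _ => ?_) r
  split_ifs with h1
  · refine (mem_gA 3).2 (isWeightedHomogeneous_monomial _ _ _ ?_)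
    have h2 := mz_ex4 (c1 m) (c2 (gtw L k) t m) (c3 m) (c4 m)
    have h3 := cv_spec h1.2
    rw [mz] at h2
    rw [cmon, h2]
    omega
  · exact zero_mem _

variable {D : ℕ → Lw} {S T : ℕ}

theorem homD_delta2 (h : ∀ s ≤ S, ∀ k < 64, gtw (D s) k = gw (s + 1) k) :
    HomD 3 (Gam S) (delta2 D T S) := by
  have hw : ∀ g g' J, IsWeightedHomogeneous (wz 3) (delta2 D T S g g' J)
      (mz 3 J + (Gam S).wt g - (Gam S).wt g') := fun g g' J => by
    rw [delta2]
    split_ifs with h2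
    · rw [dOp2]
      split_ifs with h1
      · have h3 := dRow2_mem (D g.1) g'.2 (tdeg J + gw g.1 g.2) (rwK (D g.1) g.2 J)
        rw [h g.1 (by have := g'.1.2; omega) _ g'.2.2] at h3
        rw [mz_eq h1.1, Gam_wt, Gam_wt, h2]
        convert (mem_gA 3).1 h3 using 1
        push_cast
        ring
      · by_cases h3 : xi0 S g g' J = 0
        · rw [xi0, if_pos h2] at h3
          rw [h3, show lift3 0 = 0 from rfl, map_zero]
          exact isWeightedHomogeneous_zero _ _ _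
        · rw [xi0_wt h3, sub_self]
          exact isWeightedHomogeneous_C _ _
    · exact isWeightedHomogeneous_zero _ _ _
  refine ⟨hw, fun g g' J hg => congrFun (if_neg hg) J, fun g' => ?_⟩
  by_cases h1 : (g'.1 : ℕ) = 1
  · refine nonNeg_gA 3 _ _ ((mem_gA 3).2 (hw _ g' 0)) ?_
    have := gw_one_pos g'.2 g'.2.2
    rw [(Gam S).wt_g0, Gam_wt, h1, mz_zero]
    omega
  · exact congrFun (if_neg (by simpa using h1)) 0

end Vale.Agent.P236N
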