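import Vale.Agent.P236M.Algc

/-!
# P236: the square of a matrix without `v_4` does not contain `v_4`
-/

noncomputable section

namespace Vale.Agent.P236N

open Vale.Agent.P236A Vale.Agent.P236B Vale.Agent.P236M MvPolynomial

variable (p : ℕ) [hp : Fact p.Prime] {k : Type} [CommRing k] {B : Type} [CommRing B]

omit hp in
theorem eq_single_of_wt {τ : Type} {wt : τ → ℤ} (hw : ∀ s, 0 < wt s) {d : τ →₀ ℕ} {s : τ}
    (hs : d s ≠ 0) (h : Finsupp.weight wt d = wt s) : d = Finsupp.single s 1 := by
  classical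
  obtain ⟨e, rfl⟩ : ∃ e, d = Finsupp.single s 1 + e :=
    exists_add_of_le (Finsupp.single_le_iff.2 (Nat.pos_of_ne_zero hs))
  rw [map_add, Finsupp.weight_single, one_smul, add_eq_left] at h
  rw [add_eq_left]
  ext j
  by_contra c
  have h1 := Finsupp.le_weight_of_ne_zero (fun s => (hw s).le) (show e j ≠ 0 from c)
  have h2 := hw j
  omega

theorem not_mem_vars_delU (i : ℕ) : Sum.inl (Sum.inl i) ∉ (delU p i).vars := by
  classical
  intro hs
  obtain ⟨d, hd, hs⟩ := (mem_vars_iff_mem_support _).1 hs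
  have hw : ∀ s, 0 < Sum.elim (Sum.elim (wz p) (wz p)) (wz p) s := by
    rintro ((j | j) | j) <;> exact wz_pos p j
  have h1 := eq_single_of_wt hw (Finsupp.mem_support_iff.1 hs)
    (isWH_delU p i (mem_support_iff.1 hd))
  have h2 : del p (Pi.single i (1 : ℤ)) (fun _ => 0) (fun _ => 0) i = 0 := by rw [del_zero_left]
  rw [del, ev3, coe_eval₂Hom, eval₂_eq, Finset.sum_eq_single d, h1] at h2
  · rw [Finsupp.support_single _ one_ne_zero] at h2
    apply mem_support_iff.1 hd
    rw [h1]
    simpa using h2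
  · intro e he hne
    by_cases h0 : e = 0
    · have h3 := isWH_delU p i (mem_support_iff.1 he)
      have h4 := wz_pos p i
      rw [h0, map_zero] at h3
      omega
    by_cases c : e (Sum.inl (Sum.inl i)) = 0
    · obtain ⟨s, hs⟩ := Finsupp.support_nonempty_iff.2 h0
      have hs' := Finsupp.mem_support_iff.1 hs
      rw [Finset.prod_eq_zero hs, mul_zero]
      rcases s with (j | j) | j
      · have hj : j ≠ i := fun h => hs' (h ▸ c)
        simp [hj, hs']
      · simp [hs']
      · simp [hs']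
    · exact absurd ((eq_single_of_wt hw c (isWH_delU p i (mem_support_iff.1 he))).trans h1.symm) hne
  · exact fun c => absurd hd c

/-- the coproduct of `t_(i+1)` does not involve `v_(i+1)` -/
theorem del_congr_v {v v' : ℕ → B} (t u : ℕ → B) {i : ℕ} (hv : ∀ j < i, v j = v' j) :
    del p v t u i = del p v' t u i := by
  refine eval₂Hom_congr' rfl (fun s hs _ => ?_) rfl
  have h := le_of_mem_vars Grd.nonNeg_triv (by rintro ((j | j) | j) <;> exact wz_nonneg p j)
    (Grd.isWH_iff.1 (isWH_delU p i)) hs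
  rcases s with (j | j) | j
  · exact hv j (lt_of_le_of_ne (le_of_wz p h) fun c => not_mem_vars_delU p i (c ▸ hs))
  · rfl
  · rfl

/-- the projection to `k[v_1, v_2, v_3]` -/
def pi3 : Av k →+* Av k := eval₂Hom C fun i => if i < 3 then X i else 0

omit hp in
theorem pi3_X {i : ℕ} (h : i < 3) : pi3 (X i : Av k) = X i := by simp [pi3, h]

omit hp in
theorem pi3_X' {i : ℕ} (h : ¬ i < 3) : pi3 (X i : Av k) = 0 := by simp [pi3, h]

omit hp in
theorem pi3_C (c : k) : pi3 (C c : Av k) = C c := by simp [pi3]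

omit hp in
theorem pi3_monomial (J : ℕ →₀ ℕ) (c : k) :
    pi3 (monomial J c : Av k) = if J.support ⊆ Finset.range 3 then monomial J c else 0 := by
  rw [pi3, eval₂Hom_monomial]
  split_ifs with h
  · rw [monomial_eq]
    exact congrArg _ (Finset.prod_congr rfl fun i hi => by
      simp only [if_pos (Finset.mem_range.1 (h hi))])
  · obtain ⟨i, hi, hi'⟩ := Finset.not_subset.1 h
    rw [Finsupp.prod, Finset.prod_eq_zero hi, mul_zero]
    rw [if_neg fun c => hi' (Finset.mem_range.2 c), zero_pow (Finsupp.mem_support_iff.1 hi)]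

omit hp in
theorem coeff_of_pi3 {r : Av k} (h : pi3 r = r) {J : ℕ →₀ ℕ} (hJ : J 3 ≠ 0) : coeff J r = 0 := by
  classical
  rw [← h, r.as_sum, map_sum, coeff_sum]
  refine Finset.sum_eq_zero fun L _ => ?_
  rw [pi3_monomial]
  split_ifs with c
  · rw [coeff_monomial, if_neg]
    rintro rfl
    exact absurd (Finset.mem_range.1 (c (Finsupp.mem_support_iff.2 hJ))) (by omega)
  · rfl

theorem map_pi3_etaR {b : Av k} (h : pi3 b = b) : map pi3 (etaR p k b) = etaR p k b := by
  have h1 : ((map pi3).comp (etaR p k)).comp pi3 = (etaR p k).comp (pi3 : Av k →+* Av k) := by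
    refine MvPolynomial.ringHom_ext (fun c => ?_) fun i => ?_
    · simp [pi3_C, etaR]
    · by_cases c : i < 3
      · simp only [RingHom.comp_apply, pi3_X c, etaR, eval₂Hom_X', map_eta, map_C, map_X]
        exact eta_congr p (fun j hj => by rw [pi3_X (by omega)]) fun _ _ => rfl
      · simp only [RingHom.comp_apply, pi3_X' c, map_zero]
  simpa [h] using DFunLike.congr_fun h1 b

theorem map_pi3_RG {K : ℕ →₀ ℕ} (hK : K.support ⊆ Finset.range 4) :
    map (map pi3) (RG p k (monomial K 1)) = RG p k (monomial K 1) := by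
  rw [monomial_eq, C_1, one_mul, Finsupp.prod, map_prod, map_prod]
  refine Finset.prod_congr rfl fun i hi => ?_
  have h := Finset.mem_range.1 (hK hi)
  rw [map_pow, map_pow]
  congr 1
  rw [RG, eval₂Hom_X']
  refine (map_del p (A := MvPolynomial ℕ (Gm k)) (B := MvPolynomial ℕ (Gm k))
    (map (map pi3)) _ _ _ i).trans ?_
  simp only [map_C, map_X]
  exact del_congr_v p _ _ fun j hj => by rw [pi3_X (by omega)]

/-- **The composition of two matrices without `v_4` does not contain `v_4`.** -/
theorem pi3_RR {ι : Type} [Fintype ι] {δ' δ : Mat ι (Av k)}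
    (h' : ∀ g g' J, pi3 (δ' g g' J) = δ' g g' J) (h : ∀ g g' J, pi3 (δ g g' J) = δ g g' J)
    (g g'' : ι) {K : ℕ →₀ ℕ} (hK : K.support ⊆ Finset.range 4) :
    pi3 (RR p δ' δ g g'' K) = RR p δ' δ g g'' K := by
  rw [RR, map_sum]
  refine Finset.sum_congr rfl fun g' _ => ?_
  rw [map_lin, actG, map_lin, map_pi3_RG p hK]
  simp only [h', map_pi3_etaR p (h _ _ _)]

end Vale.Agent.P236N
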