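import Vale.Agent.P236C.Data
import Vale.Agent.P236X.Def3

/-!
# P236: the check that a row reduces to the minimal resolution
-/

noncomputable section

namespace Vale.Agent.P236N

open Vale.Agent.P236C Vale.Agent.P236X

/-- data of a level -/
def eS (s : Nat) : Nat := Es.getD s 0
/-- data of a level -/
def oS (s : Nat) : Nat := Os.getD s 0
/-- data of a level -/
def gS (s : Nat) : Nat := Gs.getD s 0

/-- the set of the entries for the code `n` -/
def bts (s n : Nat) : Nat :=
  force (entN (eS s) (oS s) n) fun m => cond (Nat.beq m 0) 0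
    (force (Nat.mod (entE (eS s) (oS s) n) (Nat.shiftLeft 1 (Nat.mul 16 m))) fun x =>
      Nat.rec (motive := fun _ => Nat) 0 (fun i ih =>
        Nat.lor ih (Nat.shiftLeft 1 (Nat.mod (Nat.shiftRight x (Nat.mul 16 i)) 8192))) m)

/-- the indicator of a column -/
def ind2 (k m : Nat) : Nat := cond (Nat.beq m k) 1 0

/-- one more generator -/
def tgS (s t j : Nat) (ih : Bx ((Nat → Bool) → Bool)) : Bx ((Nat → Bool) → Bool) :=
  cond (Nat.beq (f8 (gS (Nat.succ s)) j) t) (Bx.mk fun f => and (f j) (ih.1 f)) ih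

/-- all generators of degree `t` on the next level -/
def tgB (s t : Nat) : Bx ((Nat → Bool) → Bool) :=
  Nat.rec (motive := fun _ => Bx ((Nat → Bool) → Bool)) (Bx.mk fun _ => true) (tgS s t) 64

/-- the code of the monomial without the first variable -/
def cdA (a : Nat) : Nat :=
  Nat.add (Nat.add (Nat.mul 243 (fld a 0)) (Nat.mul 6561 (fld a 1))) (Nat.mul 59049 (fld a 2))

/-- the check of one entry -/
def rcT (s e a i : Nat) (o : Ou) (j : Nat) : Bool :=
  force (Nat.add i (cdA a)) fun n =>
    Nat.beq (Nat.mod (Nat.add (o.1 (ind2 j) Nat.add) (Nat.mod (Nat.shiftRight (bts s n)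
      (Nat.add (Nat.add e (Nat.mul 64 j)) 4096)) 2)) 3)
      (Nat.mod (Nat.shiftRight (bts s n) (Nat.add e (Nat.mul 64 j))) 2)

/-- the degree of the first row -/
def dgA (s e a : Nat) : Nat := Nat.add (f8 (gS s) e) (cdeg a)

/-- the check of one row -/
def rcB (s e a i : Nat) (o : Ou) : Bool :=
  force (Nat.add (dgA s e a) i) fun t => (tgB s t).1 (rcT s e a i o)

end Vale.Agent.P236N
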