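import Vale.Agent.P236N.Bar
import Vale.Agent.P236N.Del2
import Vale.Agent.P236N.RcB
import Vale.Agent.P236N.NoV
import Vale.Agent.P236X.Dig

/-!
# P236: the matrix given by lists of columns reduces to the minimal resolution
-/

noncomputable section

namespace Vale.Agent.P236N

open Vale.Agent.P236A Vale.Agent.P236C Vale.Agent.P236X MvPolynomial

/-- the first key with the exponents of `J` (without the first one) -/
def akey (J : ℕ →₀ ℕ) : ℕ :=
  J 1 + 128 * (J 2 + 128 * J 3) + (4 * J 1 + 13 * J 2 + 40 * J 3) * 128 ^ 7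

section Key

variable {J : ℕ →₀ ℕ} (h : tdeg J ≤ 127)
include h

theorem cdeg_akey : cdeg (akey J) = 4 * J 1 + 13 * J 2 + 40 * J 3 := by
  rw [cdeg_eq, akey]
  rw [tdeg] at h
  omega

theorem fld_akey : fld (akey J) 0 = J 1 ∧ fld (akey J) 1 = J 2 ∧ fld (akey J) 2 = J 3 ∧
    fld (akey J) 3 = 0 ∧ fld (akey J) 4 = 0 ∧ fld (akey J) 5 = 0 ∧ fld (akey J) 6 = 0 := by
  rw [tdeg] at h
  have h1 : J 1 < 128 := by omega
  have h2 : J 2 < 128 := by omega
  have h3 : J 3 < 128 := by omega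
  simp only [fld_eq, akey]
  generalize 4 * J 1 + 13 * J 2 + 40 * J 3 = w
  generalize J 1 = x at *
  generalize J 2 = y at *
  generalize J 3 = z at *
  have d : ∀ {a b n : ℕ}, a / 128 ^ n = b → a / 128 ^ (n + 1) = b / 128 := fun e => by
    rw [pow_succ, ← Nat.div_div_eq_div_mul, e]
  have d0 : (x + 128 * (y + 128 * z) + w * 128 ^ 7) / 128 ^ 0 = _ := Nat.div_one _
  have d1 := (d d0).trans (show _ = y + 128 * z + w * 128 ^ 6 by omega)
  have d2 := (d d1).trans (show _ = z + w * 128 ^ 5 by omega)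
  have d3 := (d d2).trans (show _ = w * 128 ^ 4 by omega)
  have d4 := (d d3).trans (show _ = w * 128 ^ 3 by omega)
  have d5 := (d d4).trans (show _ = w * 128 ^ 2 by omega)
  have d6 := (d d5).trans (show _ = w * 128 ^ 1 by omega)
  rw [d0, d1, d2, d3, d4, d5, d6]
  omega

theorem isI_akey : IsI (akey J) := by
  obtain ⟨h0, h1, h2, h3, h4, h5, h6⟩ := fld_akey h
  refine ⟨?_, h3, h4, h5, h6⟩
  rw [cdeg_akey h, mdeg, h0, h1, h2, h3, h4, h5, h6]
  rfl

theorem rwI_akey (L : Lw) (e : ℕ) : rwI L e (akey J) (J 0) = rowO (rwK L e J) := by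
  have h1 : Nat.land (akey J) 2097151 = J 1 + 128 * (J 2 + 128 * J 3) := by
    refine (Nat.and_two_pow_sub_one_eq_mod _ 21).trans ?_
    rw [akey]
    rw [tdeg] at h
    omega
  have h2 : ∀ x : ℕ, Nat.land (Nat.shiftRight x 28) 2097151 = x / 2 ^ 28 % 2 ^ 21 := fun x => by
    rw [← Nat.shiftRight_eq_div_pow]
    exact Nat.and_two_pow_sub_one_eq_mod _ 21
  have h3 : ∀ x n : ℕ, Nat.shiftLeft x n = x * 2 ^ n := Nat.shiftLeft_eq
  rw [rwI, rwO, rwX, force_eq, rwK, h1, h2, fld_eq, h3, h3, Nat.add_eq]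
  rw [tdeg] at h
  have h4 : J 0 < 128 := by omega
  have h5 : J 1 + 128 * (J 2 + 128 * J 3) < 2 ^ 21 := by omega
  clear h1 h
  generalize J 1 + 128 * (J 2 + 128 * J 3) = w at *
  rw [show (J 0 * 2 ^ 21 + w * 2 ^ 28) / 2 ^ 28 = w by omega, Nat.mod_eq_of_lt h5,
    show (J 0 * 2 ^ 21 + w * 2 ^ 28) / 128 ^ 3 = J 0 + 128 * w by omega, Nat.add_mul_mod_self_left,
    Nat.mod_eq_of_lt h4]

end Key

/-- A check holds for all rows of the level `s`. -/
def RcOK (rc : ℕ → ℕ → ℕ → Ou → Bool) (L : Lw) (T s : ℕ) : Prop :=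
  ∀ e < 64, ∀ a i, IsI a → gw s e + cdeg a + i ≤ T → rc e a i (rwI L e a i) = true

theorem RcOK.row {rc : ℕ → ℕ → ℕ → Ou → Bool} {L : Lw} {T s : ℕ} (h : RcOK rc L T s) (hT : T ≤ 127)
    {e : ℕ} (he : e < 64) {J : ℕ →₀ ℕ} (hJ : tdeg J + gw s e ≤ T) :
    rc e (akey J) (J 0) (rowO (rwK L e J)) = true := by
  have h1 : tdeg J ≤ 127 := by omega
  rw [← rwI_akey h1]
  refine h e he _ _ (isI_akey h1) ?_
  rw [cdeg_akey h1]
  rw [tdeg] at hJ
  omega

theorem tgB_spec {s t : ℕ} {f : ℕ → Bool} (h : (tgB s t).1 f = true) {j : ℕ} (hj : j < 64)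
    (ht : gw (s + 1) j = t) : f j = true := by
  have H : ∀ n : ℕ, (Nat.rec (motive := fun _ => Bx ((Nat → Bool) → Bool)) (Bx.mk fun _ => true)
      (tgS s t) n).1 f = true → j < n → f j = true := fun n => by
    induction n with
    | zero => exact fun _ h => absurd h (Nat.not_lt_zero _)
    | succ n ih =>
      intro h1 h2
      change (cond (Nat.beq (gw (s + 1) n) t) _ _ : Bx ((Nat → Bool) → Bool)).1 f = true at h1
      cases h3 : Nat.beq (gw (s + 1) n) t <;> rw [h3] at h1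
      · refine ih h1 (lt_of_le_of_ne (Nat.le_of_lt_succ h2) fun h4 => ?_)
        rw [← h4, ht, Nat.beq_refl] at h3
        cases h3
      · have h4 := Bool.and_eq_true_iff.1 h1
        rcases Nat.lt_succ_iff_lt_or_eq.1 h2 with h5 | rfl
        exacts [ih h4.2 h5, h4.1]
  exact H 64 h hj

theorem rcB_spec {s e k r : ℕ} {J : ℕ →₀ ℕ} (hJ : tdeg J ≤ 127)
    (h : rcB s e (akey J) (J 0) (rowO r) = true) (hk : k < 64)
    (h1 : tdeg J + gw s e = gw (s + 1) k) :
    ((evM (ind2 k) r : ℕ) : ZMod 3) = P236C.cf (Es.getD s 0) (Os.getD s 0) (enc J) e k := by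
  have h2 : rcT s e (akey J) (J 0) (rowO r) k = true := by
    rw [rcB, force_eq] at h
    refine tgB_spec h hk ?_
    rw [dgA, cdeg_akey hJ, ← h1, tdeg, show f8 (gS s) e = gw s e from rfl, Nat.add_eq, Nat.add_eq]
    omega
  have h3 : Nat.add (J 0) (cdA (akey J)) = enc J := by
    obtain ⟨h0, h1, h2, -⟩ := fld_akey hJ
    rw [cdA, h0, h1, h2, enc]
    simp only [Nat.add_eq, Nat.mul_eq]
    omega
  have h5 : bts s (enc J) = bits (Es.getD s 0) (Os.getD s 0) (enc J) := by
    rw [bts, bits, eS, oS]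
  rw [rcT, force_eq, h3, rowO_add, h5] at h2
  have h4 := congrArg (Nat.cast : ℕ → ZMod 3) (Nat.eq_of_beq_eq_true h2)
  rw [cf_eq, eq_sub_iff_add_eq, ← Nat.cast_add, ← ZMod.natCast_mod, bit, bit]
  exact h4

theorem const_col {g k m : ℕ} (hm : m < 65535) (hk : k < 64) :
    P236T.r3 (constantCoeff (if m % 64 = k ∧ cv g g m = true then
      monomial (cmon g g m) (1 : K9) else 0)) = (ind2 k m : ℕ) := by
  have e1 : c1 m = m / 64 % 16 := by
    rw [c1, ← Nat.shiftRight_eq_div_pow m 6]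
    exact Nat.and_two_pow_sub_one_eq_mod _ 4
  have e3 : c3 m = m / 1024 % 8 := by
    rw [c3, ← Nat.shiftRight_eq_div_pow m 10]
    exact Nat.and_two_pow_sub_one_eq_mod _ 3
  have e4 : c4 m = m / 8192 := Nat.shiftRight_eq_div_pow m 13
  rw [ind2]
  split_ifs with h
  · have h1 := cv_spec h.2
    have h2 : cmon g g m = 0 := mz_eq_zero 3 (by rw [cmon, mz_ex4]; omega)
    have h3 : m / 64 % 16 = 0 := by omega
    have h4 : m / 1024 % 8 = 0 := by omega
    have h5 : m / 8192 = 0 := by omega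
    have h6 := h.1
    clear h1 e1 e3 e4
    rw [h2, show Nat.beq m k = true from Nat.beq_eq ▸ (by omega)]
    simp
  · rw [show Nat.beq m k = false from Bool.eq_false_iff.2 fun h1 => h ?_]
    · simp
    · have h2 := Nat.eq_of_beq_eq_true h1
      have h3 : cu g m = g := by
        change g + c1 m + 13 * c3 m + 40 * c4 m = g
        omega
      refine ⟨by omega, ?_⟩
      rw [cv, h3, Nat.ble_self_eq_true, show Nat.sub g g = 0 from Nat.sub_self g,
        show c4 m = 0 by omega]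
      rfl

variable {D : ℕ → Lw} {S T : ℕ}

theorem bar_delta2 (hT : T ≤ 127) (hg : ∀ s ≤ S, ∀ k < 64, gtw (D s) k = gw (s + 1) k)
    (hB : ∀ s ≤ S, RcOK (rcB s) (D s) T s) : bar 3 P236T.r3 (delta2 D T S) = xi0 S := by
  funext g g' J
  rw [bar, delta2, xi0]
  split_ifs with h2
  · have hs : (g.1 : ℕ) ≤ S := by have := g'.1.2; omega
    rw [dOp2]
    split_ifs with h1
    · rw [xi, mz_eq h1.1]
      have h5 := hg _ hs _ g'.2.2
      split_ifs with h3
      · have h4 : tdeg J + gw g.1 g.2 = gw (g.1 + 1) g'.2 := by omega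
        rw [← rcB_spec (by omega) ((hB _ hs).row hT g.2.2 h1.2) g'.2.2 h4, h4, dRow2, h5]
        exact evM_rel (P := fun (a : Av K9) (b : ℕ) => P236T.r3 (constantCoeff a) = b) (by simp)
          (fun _ _ _ _ h h' => by rw [map_add, map_add, h, h', Nat.cast_add])
          (fun m hm => const_col hm g'.2.2) _
      · exact wt_red 3 P236T.r3 _ _ (dRow2_mem _ _ _ _) (by omega)
    · rw [constantCoeff_C, r3_lift3]
  · rw [Pi.zero_apply, map_zero, map_zero]

/-- The entries of the matrix do not contain `v_4`. -/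
theorem pi3_delta2 (g g' : Io S) (J : ℕ →₀ ℕ) :
    pi3 (delta2 D T S g g' J) = delta2 D T S g g' J := by
  rw [delta2]
  split_ifs with h2
  · rw [dOp2]
    split_ifs with h1
    · rw [dRow2, map_evM]
      congr 1
      funext m
      split_ifs with h3
      · rw [pi3_monomial, if_pos]
        intro i hi
        rw [Finsupp.mem_support_iff, cmon, cv_four h3.2] at hi
        by_contra h4
        rw [Finset.mem_range, not_lt] at h4
        refine hi ?_
        simp only [ex4, Finsupp.add_apply, Finsupp.single_zero]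
        rw [Finsupp.single_eq_of_ne (by omega), Finsupp.single_eq_of_ne (by omega),
          Finsupp.single_eq_of_ne (by omega)]
        rfl
      · exact map_zero _
    · exact pi3_C _
  · exact map_zero _

end Vale.Agent.P236N
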