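import Vale.Agent.P236N.DcE
import Vale.Agent.P236X.Lev

/-!
# P236: soundness of the data check in one pass
-/

set_option exponentiation.threshold 1000

noncomputable section

namespace Vale.Agent.P236N

open MvPolynomial Vale.Agent.P236A Vale.Agent.P236B Vale.Agent.P236C Vale.Agent.P236M
  Vale.Agent.P236X

variable {L : Lw} {Zs : List Zc} {s k a t r T : ℕ} {Z : Zc} {gs its : List ℕ}

/-- the folded unit vector -/
def ufv (L : Lw) (t m : ℕ) (Z : Zc) : ℕ :=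
  if cv (gtw L (m % 64)) t m = true then uf (m % 64) m Z else 0

/-- the unit vector of a constant column -/
def ubv (L : Lw) (t m : ℕ) : ℕ :=
  if cv (gtw L (m % 64)) t m = true ∧ m < 64 then 1 <<< (12 * m) else 0

theorem mod_eq' (x y : ℕ) : Nat.mod x y = x % y := rfl

theorem uf0_eq (Zs : List Zc) : uf0 Zs = cat 1 0 Zs * 2 ^ 768 := Nat.shiftLeft_eq _ _

theorem uft_eq (Zs : List Zc) (L : Lw) (t m : ℕ) :
    uft Zs L t m = 1 * uf0 Zs + (cat 0 (ufv L t m) Zs * 2 ^ 768 + ubv L t m) := by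
  have e : ∀ x n : ℕ, Nat.shiftLeft x n = x * 2 ^ n := Nat.shiftLeft_eq
  rw [uft, show Nat.land m 63 = m % 64 from land_63 m, ubv]
  cases c : cv (gtw L (m % 64)) t m
  · rw [show ufv L t m = 0 from funext fun Z => if_neg (by simp [c]), cat_zero]
    simp [mod_eq']
  · rw [show ufv L t m = uf (m % 64) m from funext fun Z => if_pos c, cond_true, mod_eq',
      Nat.mod_zero, ufs, force_eq, show Nat.land m 63 = m % 64 from land_63 m, e, one_mul, uf0_eq,
      ← add_assoc, ← add_mul, ← cat_add, zero_add, Nat.add_eq]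
    congr 1
    by_cases h : m < 64
    · rw [show Nat.blt m 64 = true from Nat.blt_eq ▸ h, if_pos ⟨rfl, h⟩]
      rfl
    · rw [Bool.eq_false_iff.2 fun c => h (Nat.blt_eq ▸ c), if_neg fun c => h c.2]
      rfl

theorem dg_ubv (L : Lw) (t m p : ℕ) : dg (ubv L t m) p =
    if (cv (gtw L (m % 64)) t m = true ∧ m < 64) ∧ p = m then 1 else 0 := by
  rw [ubv, ite_and (P := _ ∧ _)]
  split_ifs with h h'
  exacts [by rw [dg_unit, if_pos h'], by rw [dg_unit, if_neg h'], dg_zero p]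

theorem dg_ufv (hk : 0 < kz Z) (L : Lw) (t m p : ℕ) :
    dg (ufv L t m Z) p ≤ 1 ∧ (kz Z ≤ p → dg (ufv L t m Z) p = 0) := by
  rw [ufv, uf]
  split_ifs
  · cases (Nat.beq (zg Z (m % 64)) Z.gam && Nat.blt (c1 m) Z.U.Y.N)
    · exact ⟨(dg_zero p).trans_le zero_le_one, fun _ => dg_zero p⟩
    · have h := dg_unit (Nat.mod (Nat.add (Nat.mul (Nat.sub (Nat.sub Z.U.Y.N 1) (c1 m)) Z.U.Y.S)
        (zi Z (m % 64) (c3 m) 0)) (kz Z)) p
      refine ⟨h.trans_le (by split_ifs <;> norm_num), fun hp => h.trans (if_neg fun c => ?_)⟩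
      exact (c ▸ Nat.mod_lt _ hk : p < kz Z).not_ge hp
  · exact ⟨(dg_zero p).trans_le zero_le_one, fun _ => dg_zero p⟩

theorem row_abs {Θ : ℕ → ℕ} {u b : ℕ} {fl : ℕ → ℕ → ℕ}
    (hf : ∀ o x, fl o x < b → x < 397 * u ∧ fl o x = o + x) (hΘ : ∀ m, 1 * u ≤ Θ m)
    (h : (algF Θ fl).row r < b) : (algF Θ fl).row r = evM Θ r ∧ (algF one1 flW).row r = 0 :=
  ⟨row_rel (R := algF Θ fl) (R' := algF Θ (· + ·)) (P := (· = ·))
      (Q := fun o o' => o < b → o = o') rfl (fun _ => rfl) (fun _ _ _ _ h => h ▸ rfl)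
      (fun _ _ _ _ h h' => h ▸ h' ▸ rfl) (fun o o' x x' h1 h2 (h3 : fl o x < _) => by
        have h4 := (hf o x h3).2
        change fl o x = o' + x'
        rw [h4, h1 (by omega), h2]) r h,
    row_rel (R := algF Θ fl) (R' := algF one1 flW)
      (P := fun x w => w * u ≤ x) (Q := fun o o' => o < b → o' = 0) (Nat.zero_mul _).le
      (fun _ => rfl) (fun m _ _ _ h => (add_mul _ _ _).trans_le (add_le_add h (hΘ m)))
      (fun _ _ _ _ h h' => (add_mul _ _ _).trans_le (add_le_add h h'))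
      (fun o o' x x' h1 h2 (h3 : fl o x < _) => by
        obtain ⟨h4, h5⟩ := hf o x h3
        have h6 : x' < 397 := Nat.lt_of_mul_lt_mul_right (h2.trans_lt h4)
        change cond (Nat.ble x' 396) o' 1 = 0
        rw [Nat.ble_eq_true_of_le (by omega), cond_true, h1 (by omega)]) r h⟩

/-- the value of a row which passes the first test -/
theorem row_val (hk : ∀ Z ∈ Zs, 0 < kz Z) {P : ℕ} (hP : P = rowV (uft Zs L t) (flV Zs) r)
    (h : P < bT Zs) : wOK (rowO r) = true ∧ evM one1 r ≤ 4094 ∧ P % 2 ^ 768 = evM (ubv L t) r ∧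
      (P % uf0 Zs) >>> 768 = cat 0 (fun Z => evM (fun m => ufv L t m Z) r) Zs := by
  have fl : ∀ o x, flV Zs o x < bT Zs → x < 397 * uf0 Zs ∧ flV Zs o x = o + x := fun o x h => by
    rw [flV] at h ⊢
    cases c : Nat.blt x (bS Zs) <;> rw [c] at h
    · exact absurd h (by rw [cond_false, mod_eq', Nat.mod_zero]; exact lt_irrefl _)
    · rw [Nat.blt_eq, bS, Nat.mul_eq] at c
      exact ⟨c, by rw [cond_true, Nat.add_eq]⟩
  rw [rowV_eq] at hP
  obtain ⟨h1, h2⟩ := row_abs fl (fun m => uft_eq Zs L t m ▸ Nat.le_add_right _ _) (hP ▸ h)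
  rw [← hP] at h1
  rw [bT, Nat.mul_eq] at h
  have h3 := evM_rel (P := fun (x : ℕ) (y : ℕ × (Zc → ℕ) × ℕ) =>
      x = y.1 * uf0 Zs + (cat 0 y.2.1 Zs * 2 ^ 768 + y.2.2)) (Θ := uft Zs L t)
    (Θ' := fun m => (one1 m, ufv L t m, ubv L t m)) (by simp [cat_zero])
    (fun _ y _ y' h h' => by
      rw [h, h', Prod.fst_add, Prod.snd_add, Prod.fst_add, Prod.snd_add, cat_add 0 0 y.2.1 y'.2.1]
      generalize 2 ^ 768 = c
      ring) (fun m _ => uft_eq Zs L t m) r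
  have e1 : (evM (fun m => (one1 m, ufv L t m, ubv L t m)) r).1 = evM one1 r :=
    map_evM (AddMonoidHom.fst ℕ _) _ r
  have e2 : (evM (fun m => (one1 m, ufv L t m, ubv L t m)) r).2.1 =
      fun Z => evM (fun m => ufv L t m Z) r := funext fun Z => map_evM
    ((Pi.evalAddMonoidHom (fun _ => ℕ) Z).comp ((AddMonoidHom.fst _ ℕ).comp (AddMonoidHom.snd ℕ _))) _ r
  have e3 : (evM (fun m => (one1 m, ufv L t m, ubv L t m)) r).2.2 = evM (ubv L t) r :=
    map_evM ((AddMonoidHom.snd (Zc → ℕ) ℕ).comp (AddMonoidHom.snd ℕ _)) _ r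
  rw [e1, e2, e3, ← h1] at h3
  have h4 : evM one1 r < 4095 :=
    Nat.lt_of_mul_lt_mul_right ((h3 ▸ Nat.le_add_right _ _ : _ ≤ P).trans_lt h)
  have h5 : evM (ubv L t) r < 2 ^ (12 * 64) := evM_lt
    (fun m p => by rw [dg_ubv]; split_ifs <;> norm_num)
    (fun m p hp => by rw [dg_ubv, if_neg fun c => by omega]) (by omega)
  have h6 := cat_lt (f := fun Z => evM (fun m => ufv L t m Z) r) fun Z hZ =>
    evM_lt (fun m p => (dg_ufv (hk Z hZ) L t m p).1) (fun m p => (dg_ufv (hk Z hZ) L t m p).2)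
      (by omega)
  refine ⟨by rw [wOK, rowO_ev, h2]; rfl, by omega, ?_, ?_⟩
  · rw [h3, uf0_eq, ← mul_assoc, ← add_assoc, ← add_mul, Nat.mul_add_mod', Nat.mod_eq_of_lt h5]
  · rw [h3, Nat.mul_add_mod', Nat.mod_eq_of_lt, Nat.shiftRight_eq_div_pow, add_comm,
      Nat.add_mul_div_right _ _ (by positivity), Nat.div_eq_of_lt h5, zero_add]
    rw [uf0_eq]
    calc _ < (_ + 1) * 2 ^ 768 := by rw [add_mul, one_mul]; exact Nat.add_lt_add_left h5 _
      _ ≤ _ := Nat.mul_le_mul_right _ h6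

theorem tgB_of {f : ℕ → Bool} (h : ∀ j < 64, gw (s + 1) j = t → f j = true) :
    (tgB s t).1 f = true := by
  have H : ∀ n ≤ 64, (Nat.rec (motive := fun _ => Bx ((Nat → Bool) → Bool)) (Bx.mk fun _ => true)
      (tgS s t) n).1 f = true := fun n hn => by
    induction n with
    | zero => rfl
    | succ n ih =>
      change (cond (Nat.beq (gw (s + 1) n) t) _ _ : Bx ((Nat → Bool) → Bool)).1 f = true
      cases h3 : Nat.beq (gw (s + 1) n) t
      · exact ih (by omega)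
      · exact Bool.and_eq_true_iff.2 ⟨h n hn (Nat.eq_of_beq_eq_true h3), ih (by omega)⟩
  exact H 64 le_rfl

theorem rcB_of (hg : gtOK2 s L = true) {i P : ℕ} (ht : gw s k + cdeg a + i = t)
    (hw : evM one1 r ≤ 4094) (hP : P % 2 ^ 768 = evM (ubv L t) r)
    (h : (tgB s t).1 (rcT2 s k a i P) = true) : rcB s k a i (rowO r) = true := by
  rw [rcB, force_eq, show Nat.add (dgA s k a) i = t from ht]
  refine tgB_of fun j hj e => ?_
  have h1 := tgB_spec h hj e
  have h2 : Nat.mod (Nat.shiftRight (Nat.mod P (Nat.shiftLeft 1 768)) (Nat.mul 12 j)) 4096 =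
      evM (ind2 j) r := by
    rw [show Nat.shiftLeft 1 768 = 2 ^ 768 from Nat.one_shiftLeft _, mod_eq', mod_eq',
      hP]
    refine (dg_evM (fun m p => by rw [dg_ubv]; split_ifs <;> norm_num) (by omega) j).1.trans ?_
    refine congrArg (evM · r) (funext fun m => ?_)
    rw [dg_ubv, ind2]
    by_cases c : m = j
    · subst c
      have e1 : c1 m = m / 64 % 16 := by
        rw [c1, ← Nat.shiftRight_eq_div_pow m 6]
        exact Nat.and_two_pow_sub_one_eq_mod _ 4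
      have e3 : c3 m = m / 1024 % 8 := by
        rw [c3, ← Nat.shiftRight_eq_div_pow m 10]
        exact Nat.and_two_pow_sub_one_eq_mod _ 3
      have e4 : c4 m = m / 8192 := Nat.shiftRight_eq_div_pow m 13
      have h3 : cu t m = t := by
        change t + c1 m + 13 * c3 m + 40 * c4 m = t
        omega
      have h4 : cv (gtw L (m % 64)) t m = true := by
        rw [Nat.mod_eq_of_lt hj, gtOK2_spec hg m hj, e, cv, h3, Nat.ble_self_eq_true,
          show Nat.sub t t = 0 from Nat.sub_self t, show c4 m = 0 by omega]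
        rfl
      rw [Nat.beq_refl, if_pos ⟨⟨h4, hj⟩, rfl⟩, cond_true]
    · rw [if_neg fun d => c d.2.symm, Bool.eq_false_iff.2 fun d => c (Nat.eq_of_beq_eq_true d)]
      rfl
  rw [rcT2, force_eq, h2] at h1
  rw [rcT, force_eq, rowO_add]
  exact h1

theorem dg_m15 (Y : Lay) (p : ℕ) : dg (m15 Y) p = if p < lenb Y 0 * Y.S then 15 else 0 := by
  have h : ∀ n, rep 4095 12 n = 273 * rep 15 12 n := fun n => by
    induction n with
    | zero => rfl
    | succ n ih => rw [rep_succ, rep_succ, ih, Nat.shiftLeft_eq, Nat.shiftLeft_eq]; ring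
  rw [m15, o12_eq, h, ← dg_rep1 (by norm_num)]
  exact congrArg (dg · p) (Nat.mul_div_cancel_left _ (by norm_num))

theorem pin_of {Y : Lay} (hY : layOK Y = true) {d p : ℕ} (h : p < lenb Y d * Y.S) : Y.pin p := by
  have h1 := layP hY
  have h2 := ((Nat.div_lt_iff_lt_mul h1.pos).2 h).trans_le (lenb_le h1.four d)
  exact Nat.le_of_lt_succ ((Nat.div_lt_iff_lt_mul (by have := h1.four; omega)).2 h2)

theorem pos_inj {Y : Lay} {p q : ℕ} (hp : Y.pin p) (hq : Y.pin q) (h : Y.pD p = Y.pD q)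
    (e : p % (Y.N * Y.S) = q % (Y.N * Y.S)) : p = q := by
  have h1 : p % Y.S = q % Y.S := by
    rw [← Nat.mod_mul_left_mod p Y.N, e, Nat.mod_mul_left_mod]
  have h2 : p / Y.S % Y.N = q / Y.S % Y.N := by
    rw [← Nat.mod_mul_left_div_self, ← Nat.mod_mul_left_div_self, e]
  have h3 : p / Y.S / Y.N = q / Y.S / Y.N := by
    rw [Lay.pD, Lay.pD, Lay.pj, Lay.pj, Lay.ph, Lay.ph, Lay.pn, Lay.pn, h1, h2] at h
    rw [Lay.pin] at hp hq
    omega
  rw [← Nat.div_add_mod p Y.S, ← Nat.div_add_mod q Y.S, ← Nat.div_add_mod (p / Y.S) Y.N,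
    ← Nat.div_add_mod (q / Y.S) Y.N, h1, h2, h3]

theorem dg_z02 (U : Ctw) (k a p : ℕ) : dg (Z02 U k a 0) p ≤ dg (m15 U.Y) p := by
  rw [Z02, Nat.beq_refl, cond_true, force_eq]
  exact (dg_land _ _ p).trans_le Nat.and_le_right

/-- **the component of degree `t` of the table** -/
theorem comp_eq (hY : layOK Z.U.Y = true) (hG : grp2 Z L = true) (ht : t ≤ Z.U.Y.T)
    (hw : evM one1 r ≤ 4094) (h : zf k a t Z = evM (fun m => ufv L t m Z) r) {p : ℕ}
    (h1 : Z.U.Y.pin p) (h2 : Z.U.Y.pD p = t) :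
    mu Z.U.Y.a Z.U.Y.N (Z.U.Y.pj p) * (dg (Z02 Z.U k a 0) p : K9) = if Z.U.Y.pq p ≤ Z.U.Y.pn p then
      P236X.cf (xq Z.U.Y.a Z.U.Y.N (dRow2 L (hk (Z.U.Y.ph p)) t r)) (Z.U.Y.pL p) else 0 := by
  classical
  obtain ⟨g1, g2⟩ := grp2_spec hG
  have lp := layP hY
  have h94 := lp.top
  have hK : 0 < kz Z := Nat.mul_pos (by have := lp.four; omega) lp.pos
  have g3 : ∀ m, zg Z (m % 64) = Z.gam → cv (gtw L (m % 64)) t m = true →
      zi Z (m % 64) (c3 m) (c4 m) < Z.U.Y.S ∧ nth 0 Z.U.Y.sl (zi Z (m % 64) (c3 m) (c4 m)) =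
        ent (m % 64) (c3 m) (c4 m) (gtw L (m % 64)) := fun m b1 b2 => by
    have := cv_eq b2
    rw [cv_four b2]
    exact g2 _ (Nat.mod_lt _ (by norm_num)) b1 _ (by omega) (by omega)
  have u : ∀ m, ufv L t m Z ≡ uv Z L t m [MOD 2 ^ (12 * kz Z) - 1] ∧ ∀ q, dg (uv Z L t m) q ≤ 1 ∧
      (¬ (Z.U.Y.pin q ∧ Z.U.Y.pD q = t) → dg (uv Z L t m) q = 0) := fun m => by
    rw [uv_eq, ufv, uf]
    cases c0 : cv (gtw L (m % 64)) t m
    · simp [Nat.ModEq, dg_zero]
    cases c : (Nat.beq (zg Z (m % 64)) Z.gam && Nat.blt (c1 m) Z.U.Y.N)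
    · simp [c, Nat.ModEq, dg_zero]
    rw [Bool.true_and, c, if_pos rfl, cond_true, cond_true]
    rw [Bool.and_eq_true, Nat.beq_eq, Nat.blt_eq] at c
    obtain ⟨b1, b2⟩ := g3 m c.1 c0
    have b3 := cv_eq c0
    obtain ⟨a1, a2, -⟩ := mkp_spec b1 b2 c.2 (Nat.mod_lt _ (by norm_num)) (by omega)
      (by omega) (b3.trans_le ht) rfl
    refine ⟨?_, fun q => ⟨by rw [dg_unit]; split_ifs <;> norm_num, fun hq => ?_⟩⟩
    · have e : ∀ x : ℕ, 2 ^ (12 * (x % kz Z)) ≡ 2 ^ (12 * x) [MOD 2 ^ (12 * kz Z) - 1] := fun x => by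
        conv_rhs => rw [← Nat.mod_add_div x (kz Z), mul_add, pow_add, ← mul_assoc, pow_mul _ (12 * kz Z)]
        simpa using (((pow_modEq (kz Z)).pow (x / kz Z)).mul_left (2 ^ (12 * (x % kz Z)))).symm
      rw [Nat.one_shiftLeft, mkp, cv_four c0, add_mul, mul_assoc, add_assoc]
      refine .trans ?_ (e _)
      rw [show Z.U.Y.N * Z.U.Y.S = kz Z from rfl, Nat.mul_add_mod']
      exact congrArg (· % _) (Nat.one_shiftLeft _)
    · rw [dg_unit, if_neg fun e : q = _ => hq (e ▸ ⟨a1, a2.trans b3⟩)]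
  have v := fun q => dg_evM (fun m q => ((u m).2 q).1) (hw.trans (by norm_num)) q
  have h3 : zf k a t Z ≡ evM (uv Z L t) r [MOD 2 ^ (12 * kz Z) - 1] := h ▸
    evM_rel (P := fun x y => x ≡ y [MOD 2 ^ (12 * kz Z) - 1]) rfl (fun _ _ _ _ => Nat.ModEq.add)
      (fun m _ => (u m).1) r
  have h4 : ∀ q, dg (Z02 Z.U k a 0 &&& mD Z.U.Y t) q =
      if Z.U.Y.pin q ∧ Z.U.Y.pD q = t then dg (Z02 Z.U k a 0) q else 0 := fun q =>
    dg_mask ((dg_mD lp.len lp.pos t q).trans (if_congr (by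
      rw [Lay.pD, Lay.ph, nth_eq]
      exact and_congr_left fun e => ⟨pin_of hY, fun c => lt_len hY c (by
        rw [Lay.pD, Lay.ph, nth_eq]; exact e.ge)⟩) rfl rfl)) _
  have h5 : ∀ q, dg (Z02 Z.U k a 0) q ≤ 15 := fun q =>
    (dg_z02 _ _ _ q).trans (by rw [dg_m15]; split_ifs <;> norm_num)
  have A : ∀ p q, Z.U.Y.pin p ∧ Z.U.Y.pD p = t → Z.U.Y.pin q ∧ Z.U.Y.pD q = t →
      p % kz Z = q % kz Z → p = q := fun p q hp hq => pos_inj hp.1 hq.1 (hp.2.trans hq.2.symm)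
  have h6 : dg (Z02 Z.U k a 0) p = dg (evM (uv Z L t) r) p := by
    rw [← dg_fold_of hK A (fun q => (v q).2.trans hw) (fun q c => by_contra fun d => c (by
      simp only [(v q).1, (u _).2 q |>.2 d, evM_zero'])) ⟨h1, h2⟩, ← h3, zf, mz1, wb, mDz,
      show Nat.shiftLeft 1 (Nat.mul 12 (kz Z)) = 2 ^ (12 * kz Z) from Nat.one_shiftLeft _,
      mod_eq', Nat.sub_eq, Nat.mod_mod, Nat.land_eq,
      dg_fold_of hK A (fun q => by have := h5 q; rw [h4]; split_ifs <;> omega)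
        (fun q c => by_contra fun d => c (by rw [h4, if_neg d])) ⟨h1, h2⟩, h4, if_pos ⟨h1, h2⟩]
  rw [h6, (v p).1, dRow2, map_evM]
  refine evM_rel (P := fun (x : ℕ) (y : Ab Z.U.Y.a Z.U.Y.N) => mu Z.U.Y.a Z.U.Y.N (Z.U.Y.pj p) *
      (x : K9) = if Z.U.Y.pq p ≤ Z.U.Y.pn p then P236X.cf y (Z.U.Y.pL p) else 0)
    (by simp [cf_zero lp.aN]) (fun _ _ _ _ b b' => ?_) (fun m _ => ?_) r
  · rw [Nat.cast_add, mul_add, b, b', cf_add lp.aN]
    split_ifs <;> simp
  · have := (uv_rep hY (fun h hh => (g1 h hh).2) ht (g3 m) t).eq p h1 h2.ge (h2.trans_le ht)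
    rwa [h2, Nat.sub_self, add_zero, if_pos rfl] at this

theorem df2_eq (k g a0 i2 : ℕ) {a : ℕ} (ha : a0 + i2 * 2251799813685249 = a) :
    df2 s L T Zs k g a0 i2 = allN (rcF s L Zs k a (g + cdeg a)) (T + 1 - (g + cdeg a)) := by
  rw [df2, force_eq, force_eq, Nat.add_eq, Nat.mul_eq, ha, Nat.add_eq, Nat.sub_eq]

theorem dfI_eq {it k a : ℕ} (he : it % 64 = k)
    (hc : it / 64 % 8 * 7318349394477184 + it / 512 * 22517998136868864 = a)
    (hT : nth 0 gs k + cdeg a ≤ T) : dfI s L gs T Zs it =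
      allN (df2 s L T Zs k (nth 0 gs k) a) ((T - (nth 0 gs k + cdeg a)) / 4 + 1) := by
  have e1 : Nat.land it 63 = k := (land_63 _).trans he
  have e2 : Nat.land (Nat.shiftRight it 6) 7 = it / 64 % 8 := h3_eq _
  have e3 : Nat.shiftRight it 9 = it / 512 := Nat.shiftRight_eq_div_pow _ 9
  rw [dfI, force_eq, force_eq, force_eq, e1, e2, e3, Nat.add_eq, Nat.add_eq, Nat.mul_eq, Nat.mul_eq,
    hc, Nat.ble_eq_true_of_le hT, cond_true]
  exact congrArg _ rfl

/-- **the loops of the check reach every row** -/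
theorem df_spec (hc : dfU L gs T Zs s its = true) (hs : gsOK s gs = true) (hI : covI s T its = true)
    (h94 : T ≤ 94) {e a i : ℕ} (he : e < 64) (ha : IsI a) (hd : gw s e + cdeg a + i ≤ T) :
    rcF s L Zs e a (gw s e + cdeg a) i = true := by
  obtain ⟨a1, a2⟩ := ha.eq
  have h1 := allN_iff.1 (allN_iff.1 (allN_iff.1 hI e he) (fld a 1) (by omega)) (fld a 2) (by omega)
  rw [Bool.or_eq_true, Nat.blt_eq] at h1
  have h2 := allL_iff.1 hc _ (memL_spec (h1.resolve_left (by omega)))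
  obtain ⟨c, hc0⟩ : ∃ c, c = fld a 1 * 7318349394477184 + fld a 2 * 22517998136868864 := ⟨_, rfl⟩
  have d0 : cdeg c = 13 * fld a 1 + 40 * fld a 2 := by
    rw [cdeg_eq]
    omega
  have e2 : (e + 64 * (fld a 1 + 8 * fld a 2)) / 64 % 8 = fld a 1 := by omega
  have e3 : (e + 64 * (fld a 1 + 8 * fld a 2)) / 512 = fld a 2 := by omega
  have g := gsOK_spec hs e he
  rw [dfI_eq (k := e) (a := c) (by omega) (by rw [e2, e3, hc0]) (by omega), allN_iff, g] at h2
  have h3 := h2 (fld a 0) (by omega)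
  rw [df2_eq (a := a) _ _ _ _ (by omega), allN_iff] at h3
  exact h3 i (by omega)

theorem rcF_spec (hk : ∀ Z ∈ Zs, 0 < kz Z) (hg : gtOK2 s L = true) {i : ℕ} (hi : i < 128)
    (h : rcF s L Zs k a (gw s k + cdeg a) i = true) :
    wOK (rwI L k a i) = true ∧ rcB s k a i (rwI L k a i) = true ∧
      evM one1 (rwN (blw L k (a % 2 ^ 21)) i) ≤ 4094 ∧ ∀ Z ∈ Zs, zf k a (gw s k + cdeg a + i) Z =
        evM (fun m => ufv L (gw s k + cdeg a + i) m Z) (rwN (blw L k (a % 2 ^ 21)) i) := by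
  have e : ∀ b n, Nat.shiftLeft b n = b * 2 ^ n := Nat.shiftLeft_eq
  have e1 : rwX L k (Nat.add (Nat.shiftLeft i 21) (Nat.shiftLeft (Nat.land a 2097151) 28)) =
      rwN (blw L k (a % 2 ^ 21)) i := by
    rw [rwX, force_eq, lo_eq, lo_eq, e, e, Nat.add_eq, fld_eq, Nat.shiftRight_eq,
      Nat.shiftRight_eq_div_pow]
    have h5 := Nat.mod_lt a (Nat.two_pow_pos 21)
    generalize a % 2 ^ 21 = w at *
    rw [show (i * 2 ^ 21 + w * 2 ^ 28) / 2 ^ 28 = w by omega, Nat.mod_eq_of_lt h5,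
      show (i * 2 ^ 21 + w * 2 ^ 28) / 128 ^ 3 = i + 128 * w by omega, Nat.add_mul_mod_self_left,
      Nat.mod_eq_of_lt hi]
  rw [rcF, force_eq, Nat.add_eq, Bool.and_eq_true, Bool.and_eq_true, Nat.blt_eq, Nat.beq_eq,
    Nat.shiftRight_eq, mod_eq'] at h
  obtain ⟨b1, b2, b3, b4⟩ := row_val hk (by rw [pV, e1]) h.1.1
  rw [rwI_eq _ _ _ hi]
  refine ⟨b1, rcB_of hg rfl b2 b3 h.1.2, b2, cat_inj (fun Z hZ => ?_) (fun Z hZ => ?_)
    (h.2.symm.trans b4)⟩
  · have h1 : mz1 Z = 2 ^ (12 * kz Z) - 1 := congrArg (· - 1) (Nat.one_shiftLeft _)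
    have h2 := hk Z hZ
    rw [zf, mod_eq', h1]
    exact (Nat.mod_lt _ (Nat.sub_pos_of_lt (Nat.one_lt_two_pow (by omega)))).trans_le (Nat.sub_le _ _)
  · exact evM_lt (fun m p => (dg_ufv (hk Z hZ) L _ m p).1) (fun m p => (dg_ufv (hk Z hZ) L _ m p).2)
      (by omega)

variable {D : ℕ → Lw}

/-- The table is correct if the vectors are correct. -/
theorem zok_of' (hY : layOK Z.U.Y = true) (hT : Z.U.Y.T = T)
    (h : ∀ e < 64, ∀ a, IsI a → gw s e + cdeg a ≤ T →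
      Rep Z.U.Y (Z02 Z.U e a 0) (gw s e + cdeg a) 126 fun i k2 => xq _ _ (dRow2 (D s) k2
        (gw s e + cdeg a + i) (rwN (blw (D s) e (a % 2 ^ 21)) i))) : ZOK Z.U D T s := by
  intro k hk' a x ha hx hd
  have h0 := (layP hY).top
  have hf : ∀ j < 7, fld (a + x) j = fld a j + fld x j := fun j => fld_add fun j hj => by
    have := fld_lt a j
    have := fld_lt x j
    obtain ⟨-, _, _, _, _⟩ := ha
    obtain ⟨-, _, _, _⟩ := hx
    interval_cases j <;> omega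
  obtain ⟨a1, a2⟩ := ha.eq
  have hl : lmon (a + x) = lmon x := by
    rw [lmon, lmon, hf 3, hf 4, hf 5, hf 6, ha.2.1, ha.2.2.1, ha.2.2.2.1, ha.2.2.2.2] <;> norm_num
  simp only [mono_eq, Phi0, lin_one]
  rw [hl, hf 0, hf 1, hf 2, hx.2.1, hx.2.2.1, hx.2.2.2]
  any_goals norm_num
  by_cases e : x = 0
  swap
  · rw [Z02, Bool.eq_false_iff.2 fun c => e (Nat.eq_of_beq_eq_true c), cond_false]
    refine (Rep.zero hY _ _).congr fun i k2 _ => (if_neg fun c => e ?_).symm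
    have h2 : ∀ j, lmon x j = 0 := fun j => by
      have := Finsupp.notMem_support_iff.1 fun a => by simpa using c (a : j + 4 ∈ _)
      rw [Finsupp.add_apply, sh_add] at this
      exact Nat.eq_zero_of_add_eq_zero_left this
    have b3 : fld x 3 = 0 := (ex4_0 _ _ _ _).symm.trans (h2 0)
    have b4 : fld x 4 = 0 := (ex4_1 _ _ _ _).symm.trans (h2 1)
    have b5 : fld x 5 = 0 := (ex4_2 _ _ _ _).symm.trans (h2 2)
    have b6 : fld x 6 = 0 := (ex4_3 _ _ _ _).symm.trans (h2 3)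
    obtain ⟨b, b0, b1, b2⟩ := hx
    have := code_eq x
    rw [mdeg] at b
    omega
  subst e
  have h3 : sh (lmon 0) = 0 := by simp [lmon, fld_eq, ex4, P236M.sh]
  have h4 : cdeg 0 = 0 := rfl
  rw [h4, add_zero] at hd ⊢
  rw [h3]
  refine (h k hk' a ha (hT ▸ hd)).congr fun i k2 hi => ?_
  have h5 : tdeg (ex4 i (fld a 0) (fld a 1) (fld a 2)) + gw s k = gw s k + cdeg a + i := by
    rw [tdeg_ex4]
    omega
  rw [add_zero, if_pos (supp_ex4 _ _ _ _), dOp2, h5, if_pos ⟨supp_ex4 _ _ _ _, hT ▸ hi⟩, rwK, ex4_0,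
    ex4_1, ex4_2, ex4_3, lo_fld]

/-- the side conditions of the check of the data -/
def datF (L : Lw) (gs : List Nat) (T s : Nat) (Zs : List Zc) (its : List Nat) : Bool :=
  datB L gs T s its && allL (fun Z => Nat.blt 0 (kz Z)) Zs

/-- **soundness of the check of the data** -/
theorem datOK_f (hc : dfU L gs T Zs s its = true) (hb : datF L gs T s Zs its = true) :
    DatOK L T s Zs := by
  simp only [datF, datB, Bool.and_eq_true, Nat.ble_eq, allL_iff, Nat.blt_eq] at hb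
  obtain ⟨⟨⟨⟨h1, h2⟩, h3⟩, h4⟩, h5⟩ := hb
  have h := fun e (he : e < 64) a i (ha : IsI a) (hd : gw s e + cdeg a + i ≤ T) =>
    rcF_spec h5 h1 (by omega) (df_spec hc h2 h3 h4 he ha hd)
  refine ⟨h1, fun _ he _ hx hd => dc_row (P := fun o => wOK o = true)
    (fun e he a i ha hd => (h e he a i ha hd).1) he hx hd,
    fun e he a i ha hd => (h e he a i ha hd).2.1, ?_⟩
  rintro D rfl Z hZ hY hT hG
  refine zok_of' hY hT fun e he a ha _ => ⟨fun p => ?_, fun p hp => ?_, fun p b1 b2 b3 => ?_⟩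
  · exact (dg_z02 _ _ _ p).trans (by rw [dg_m15]; split_ifs <;> norm_num)
  · exact Nat.eq_zero_of_le_zero ((dg_z02 _ _ _ p).trans_eq
      (by rw [dg_m15, if_neg fun c => hp (pin_of hY c)]))
  · obtain ⟨-, -, c1, c2⟩ := h e he a (Z.U.Y.pD p - (gw s e + cdeg a)) ha (by omega)
    exact comp_eq hY hG (by omega) c1 (c2 Z hZ) b1 (by omega)

theorem dfU_nil : dfU L gs T Zs s [] = true := rfl

theorem dfU_append {l l' : List ℕ} (h : dfU L gs T Zs s l = true) (h' : dfU L gs T Zs s l' = true) :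
    dfU L gs T Zs s (l ++ l') = true := allL_append h h'

end Vale.Agent.P236N
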