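import Vale.Agent.P236N.Del

/-!
# P236: the matrix given by the data reduces to the minimal resolution
-/

noncomputable section

namespace Vale.Agent.P236N

open Vale.Agent.P236A Vale.Agent.P236C Vale.Agent.P236X MvPolynomial

/-- the set of the entries for the code `n` -/
def bits (E O n : Nat) : Nat :=
  force (entN E O n) fun m => cond (Nat.beq m 0) 0
    (force (Nat.mod (entE E O n) (Nat.shiftLeft 1 (Nat.mul 16 m))) fun x =>
      Nat.rec (motive := fun _ => Nat) 0 (fun i ih =>
        Nat.lor ih (Nat.shiftLeft 1 (Nat.mod (Nat.shiftRight x (Nat.mul 16 i)) 8192))) m)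

/-- one bit -/
def bit (x i : Nat) : Nat := Nat.mod (Nat.shiftRight x i) 2

/-- the indicator of the columns of a generator -/
def ind (k c : Nat) : Nat := cond (Nat.beq (Nat.mod c 64) k) 1 0

/-- the groups which contain a column of the generator `k` -/
def sel (k : Nat) (g : GrL) : GrL → GrL :=
  GrL.rec (motive := fun _ => GrL → GrL) (fun acc => acc)
    (fun tag off w cols _ ih acc => cond (allL (fun c => Nat.beq (ind k c) 0) cols) (ih acc)
      (ih (GrL.cons tag off w cols acc))) g

/-- the groups for the generator `k` of degree `t` -/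
def selK (L : Lv) (k t : Nat) : GrL := sel k (colF L t) GrL.nil

/-- the check of one entry -/
def okE (E O : Nat) (L : Lv) (e k t a b c d : Nat) : Bool :=
  force (Nat.add a (Nat.mul 128 (Nat.add b (Nat.mul 128 (Nat.add c (Nat.mul 128 d)))))) fun kc =>
    force (Nat.add (Nat.add (Nat.add a (Nat.mul 243 b)) (Nat.mul 6561 c)) (Nat.mul 59049 d)) fun n =>
      force (Nat.add e (Nat.mul 64 k)) fun key => force (rowK L e kc t) fun r =>
        Nat.beq (Nat.mod (Nat.add (macG (ind k) r (selK L k t))
          (bit (bits E O n) (Nat.add key 4096))) 3) (bit (bits E O n) key)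

/-- the check of the entries with given generators; `u` is the degree of the monomials -/
def okP (E O : Nat) (L : Lv) (e k t u : Nat) : Bool :=
  allN (fun d => force (Nat.sub u (Nat.mul 40 d)) fun u₁ =>
    allN (fun c => force (Nat.sub u₁ (Nat.mul 13 c)) fun u₂ =>
      allN (fun b => force (Nat.sub u₂ (Nat.mul 4 b)) fun a => okE E O L e k t a b c d)
        (Nat.succ (Nat.div u₂ 4))) (Nat.succ (Nat.div u₁ 13))) (Nat.succ (Nat.div u 40))

/-- the check of a level -/
def okB (s : Nat) (L : Lv) (T : Nat) : Bool :=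
  force (Gs.getD s 0) fun G => force (Gs.getD (Nat.succ s) 0) fun G' =>
    force (Es.getD s 0) fun E => force (Os.getD s 0) fun O =>
      allN (fun k₀ => force k₀ fun k => force (f8 G' k) fun t => cond (Nat.ble t T)
        (allN (fun e₀ => force e₀ fun e => force (f8 G e) fun b => cond (Nat.ble b t)
          (force (Nat.sub t b) fun u => okP E O L e k t u) true) 64) true) 64

theorem bit_eq (x i : ℕ) : bit x i = if x.testBit i then 1 else 0 := by
  rw [Nat.testBit_eq_decide_div_mod_eq, ← Nat.shiftRight_eq_div_pow]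
  change x >>> i % 2 = _
  rcases Nat.mod_two_eq_zero_or_one (x >>> i) with h | h <;> simp [h]

theorem testBit_bits (E O n key : ℕ) : (bits E O n).testBit key = true ↔ HasE E O n key := by
  rw [bits, force_eq, HasE]
  generalize entN E O n = m
  generalize entE E O n = y
  have h1 : ∀ (x j : ℕ), (Nat.rec (motive := fun _ => ℕ) 0 (fun i ih =>
      Nat.lor ih (Nat.shiftLeft 1 (Nat.mod (Nat.shiftRight x (Nat.mul 16 i)) 8192))) j).testBit key
        = true ↔ ∃ i < j, x >>> (16 * i) % 8192 = key := fun x j => by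
    induction j with
    | zero => simp
    | succ j ih =>
      change Nat.testBit (_ ||| 1 <<< (x >>> (16 * j) % 8192)) key = true ↔ _
      rw [Nat.testBit_or, Bool.or_eq_true, ih, Nat.one_shiftLeft, Nat.testBit_two_pow,
        decide_eq_true_eq, Nat.exists_lt_succ_right]
  have h2 : ∀ i < m, (y % 1 <<< (16 * m)) >>> (16 * i) % 8192 = y >>> (16 * i) % 8192 :=
    fun i hi => Nat.eq_of_testBit_eq fun p => by
      rw [show 8192 = 2 ^ 13 by norm_num, Nat.one_shiftLeft]
      simp only [Nat.testBit_mod_two_pow, Nat.testBit_shiftRight]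
      by_cases hp : p < 13
      · simp [show 16 * i + p < 16 * m by omega]
      · simp [hp]
  cases h : Nat.beq m 0
  · rw [cond_false, force_eq, h1]
    exact exists_congr fun i => and_congr_right fun hi => by rw [← h2 i hi]; rfl
  · simp [Nat.eq_of_beq_eq_true h]

theorem cf_eq (E O n k k' : ℕ) : P236C.cf E O n k k' =
    (bit (bits E O n) (k + 64 * k') : ℕ) - (bit (bits E O n) (k + 64 * k' + 4096) : ℕ) := by
  simp only [P236C.cf, bit_eq, Nat.cast_ite, Nat.cast_one, Nat.cast_zero]
  congr 2 <;> exact propext (testBit_bits E O n _).symm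

theorem comb_eq (Θ : ℕ → ℕ) (w : ℕ) (l : List ℕ) (key : ℕ) : comb Θ w l key = combV Θ w l key := by
  induction l generalizing key with
  | nil => rfl
  | cons c l ih =>
    change cond (Nat.beq (key >>> w) 0) ((key % 1 <<< w % 9 * Θ c) % 0)
      (cond (Nat.beq (key % 1 <<< w) 0) (comb Θ w l (key >>> w) % 0)
        (key % 1 <<< w % 9 * Θ c + comb Θ w l (key >>> w))) = _
    rw [combV, Nat.one_shiftLeft, ih, Nat.mod_zero, Nat.mod_zero, smul_eq_mul]
    cases h : Nat.beq (key >>> w) 0
    · cases h' : Nat.beq (key % 2 ^ w) 0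
      · rfl
      · simp [Nat.eq_of_beq_eq_true h']
    · rw [Nat.eq_of_beq_eq_true h, combV_zero]
      rfl

theorem macG_eq (Θ : ℕ → ℕ) (r : ℕ) (g : GrL) : macG Θ r g = macV Θ r g := by
  induction g with
  | nil => rfl
  | cons tag off w cols g ih =>
    change cond (Nat.beq (r >>> off &&& (2 ^ 8 - 1)) 0) (macG Θ r g)
      (macG Θ r g + comb Θ w cols (r >>> off &&& (2 ^ 8 - 1))) = _
    rw [macV, ih, comb_eq, Nat.and_two_pow_sub_one_eq_mod]
    cases h : Nat.beq (r >>> off % 2 ^ 8) 0
    · rfl
    · rw [show r >>> off % 256 = 0 from Nat.eq_of_beq_eq_true h, combV_zero]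
      rfl

theorem macV_sel (k r : ℕ) (g acc : GrL) :
    macV (ind k) r (sel k g acc) = macV (ind k) r g + macV (ind k) r acc := by
  induction g generalizing acc with
  | nil => exact (zero_add _).symm
  | cons tag off w cols g ih =>
    change macV _ r (cond (allL (fun c => Nat.beq (ind k c) 0) cols) (sel k g acc)
      (sel k g (.cons tag off w cols acc))) = _
    cases h : allL (fun c => Nat.beq (ind k c) 0) cols
    · rw [cond_false, ih, macV, macV]
      ring
    · rw [cond_true, ih, macV, AddSubmonoid.mem_bot.1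
        (combV_mem (fun c hc => Nat.eq_of_beq_eq_true (allL_spec h hc)) _ _), add_zero]

theorem okE_spec {E O : ℕ} {L : Lv} {e k t a b c d : ℕ} (h : okE E O L e k t a b c d = true) :
    ((macV (ind k) (rowK L e (a + 128 * (b + 128 * (c + 128 * d))) t) (colF L t) : ℕ) : ZMod 3) =
      P236C.cf E O (a + 243 * b + 6561 * c + 59049 * d) e k := by
  have h1 := congrArg (Nat.cast : ℕ → ZMod 3) (Nat.eq_of_beq_eq_true h)
  rw [macG_eq, selK, macV_sel] at h1
  rw [cf_eq, eq_sub_iff_add_eq, ← Nat.cast_add, ← ZMod.natCast_mod]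
  exact h1

theorem okP_spec {E O : ℕ} {L : Lv} {e k t a b c d : ℕ}
    (h : okP E O L e k t (a + 4 * b + 13 * c + 40 * d) = true) : okE E O L e k t a b c d = true := by
  have h1 := allN_spec h (i := d) (Nat.lt_succ_of_le ((Nat.le_div_iff_mul_le (by norm_num)).2
    (by omega)))
  rw [force_eq, show Nat.sub (a + 4 * b + 13 * c + 40 * d) (Nat.mul 40 d) = a + 4 * b + 13 * c from
    Nat.add_sub_cancel _ _] at h1
  have h2 := allN_spec h1 (i := c) (Nat.lt_succ_of_le ((Nat.le_div_iff_mul_le (by norm_num)).2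
    (by omega)))
  rw [force_eq, show Nat.sub (a + 4 * b + 13 * c) (Nat.mul 13 c) = a + 4 * b from
    Nat.add_sub_cancel _ _] at h2
  have h3 := allN_spec h2 (i := b) (Nat.lt_succ_of_le ((Nat.le_div_iff_mul_le (by norm_num)).2
    (by omega)))
  rwa [force_eq, show Nat.sub (a + 4 * b) (Nat.mul 4 b) = a from Nat.add_sub_cancel _ _] at h3

theorem okB_spec {s : ℕ} {L : Lv} {T : ℕ} (h : okB s L T = true) {e k : ℕ} (he : e < 64)
    (hk : k < 64) {J : ℕ →₀ ℕ} (h1 : tdeg J + gw s e = gw (s + 1) k) (h2 : gw (s + 1) k ≤ T) :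
    ((macV (ind k) (rowK L e (kcode J) (gw (s + 1) k)) (colF L (gw (s + 1) k)) : ℕ) : ZMod 3) =
      P236C.cf (Es.getD s 0) (Os.getD s 0) (enc J) e k := by
  simp only [okB, force_eq] at h
  have h3 : cond (Nat.ble (gw (s + 1) k) T) _ true = true := allN_spec h hk
  rw [Nat.ble_eq_true_of_le h2, cond_true] at h3
  have h4 : cond (Nat.ble (gw s e) (gw (s + 1) k))
      (okP _ _ L e k (gw (s + 1) k) (gw (s + 1) k - gw s e)) true = true := allN_spec h3 he
  rw [Nat.ble_eq_true_of_le (by omega), cond_true, show gw (s + 1) k - gw s e = tdeg J by omega] at h4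
  exact okE_spec (okP_spec h4)

variable {D : ℕ → Lv} {S T : ℕ}

theorem bar_delta (hH : ∀ s ≤ S, OkH s (D s) T) (hB : ∀ s ≤ S, okB s (D s) T = true) :
    bar 3 P236T.r3 (delta D T S) = xi0 S := by
  funext g g' J
  rw [bar, delta, xi0]
  split_ifs with h2 h1
  · have hs : (g.1 : ℕ) ≤ S := by have := g'.1.2; omega
    rw [xi, mz_eq h1.1]
    split_ifs with h3
    · have h4 : tdeg J + gw g.1 g.2 = gw (g.1 + 1) g'.2 := by omega
      rw [← okB_spec (hB _ hs) g.2.2 g'.2.2 h4 (h4 ▸ h1.2), ← h4, dRow, map_macV, map_macV,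
        ← eq_natCast (Nat.castRingHom (ZMod 3)), map_macV]
      refine macV_congr ((hH _ hs _ h1.2).mono fun c hc => ?_) _
      rw [ind]
      split_ifs with h5
      · have h6 : lmon c = 0 := mz_eq_zero 3 (by rw [mz_lmon]; rw [h5] at hc; omega)
        rw [h6, show Nat.beq (Nat.mod c 64) g'.2 = true from Nat.beq_eq ▸ h5]
        simp
      · rw [show Nat.beq (Nat.mod c 64) g'.2 = false from
          Bool.eq_false_iff.2 fun h => h5 (Nat.eq_of_beq_eq_true h)]
        simp
    · exact wt_red 3 P236T.r3 _ _ (dRow_mem (hH _ hs) g.2 g'.2 (kcode J) h1.2) (by omega)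
  · rw [constantCoeff_C, r3_lift3]
  · rw [map_zero, map_zero]

end Vale.Agent.P236N
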