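import Vale.Agent.P236N.DcF
import Vale.Agent.P236N.Del2
import Vale.Agent.P236X.Dig

/-!
# P236: arithmetic of the data check in one pass
-/

noncomputable section

namespace Vale.Agent.P236N

open Vale.Agent.P236X Finset

section Read

variable (Θ : ℕ → ℕ) (fl : ℕ → ℕ → ℕ)

theorem f1_iter (k : ℕ → ℕ → ℕ) (n r a : ℕ) :
    (f1 Θ k)^[n] k r a = k ((algF Θ fl).gV n r a).1 ((algF Θ fl).gV n r a).2 := by
  induction n generalizing r a with
  | zero => rfl
  | succ n ih =>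
    have h : Nat.land r 65535 = r % 65536 := Nat.and_two_pow_sub_one_eq_mod r 16
    rw [Function.iterate_succ_apply', f1, Alg.gV, h]
    cases r % 65536 with
    | zero => rfl
    | succ m => exact ih _ _

theorem fS_eq (j : ℕ) (ih : ℕ → ℕ → ℕ → ℕ) (r a b : ℕ) : fS Θ j ih r a b =
    ih ((algF Θ fl).gV 512 r a).1 ((algF Θ fl).gV 512 r a).2 (b + ((algF Θ fl).gV 512 r a).2) := by
  have h : ∀ (k : ℕ → ℕ → ℕ) (n : ℕ),
      (Nat.rec (motive := fun _ => ℕ → ℕ → ℕ) k (f8s Θ k) n) = (f1 Θ k)^[8 * n] k := fun k n => by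
    induction n with
    | zero => rfl
    | succ n ih =>
      rw [Nat.mul_succ, Nat.add_comm (8 * n), Function.iterate_add_apply, ← ih]
      rfl
  rw [fS, h, f1_iter Θ fl]
  rfl

theorem fS_rec (K : ℕ → ℕ → ℕ) (o m r a b : ℕ) :
    Nat.rec (motive := fun _ => ℕ → ℕ → ℕ → ℕ) (fS Θ 0 (fR fl K o)) (fS Θ) m r a b =
      K ((algF Θ fl).sV (m + 1) r a b).1 (fl o ((algF Θ fl).sV (m + 1) r a b).2) := by
  induction m generalizing r a b with
  | zero => exact fS_eq Θ fl _ _ _ _ _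
  | succ m ih => exact (fS_eq Θ fl _ _ _ _ _).trans (ih _ _ _)

theorem rowV_eq (r : ℕ) : rowV Θ fl r = (algF Θ fl).row r := by
  have h : ∀ n r o : ℕ, Nat.rec (motive := fun _ => ℕ → ℕ → ℕ) (fun _ out => out) (fT Θ fl) n r o =
      (algF Θ fl).rV n r o := fun n => by
    induction n with
    | zero => exact fun _ _ => rfl
    | succ n ih =>
      intro r o
      have h : Nat.land r 65535 = r % 65536 := Nat.and_two_pow_sub_one_eq_mod r 16
      change fT Θ fl n _ r o = _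
      rw [fT, Alg.rV, h]
      cases r % 65536 with
      | zero => rfl
      | succ m => exact (fS_rec Θ fl _ _ _ _ _ _).trans (ih _ _)
  exact h 64 r 0

end Read

/-- sums of unit vectors without carries -/
theorem dg_evM {Θ : ℕ → ℕ} (h : ∀ m p, dg (Θ m) p ≤ 1) {r : ℕ} (hr : evM one1 r ≤ 4095) (p : ℕ) :
    dg (evM Θ r) p = evM (fun m => dg (Θ m) p) r ∧ dg (evM Θ r) p ≤ evM one1 r := by
  have h1 := evM_rel (P := fun (a : ℕ) (b : ℕ × (ℕ → ℕ)) => b.1 ≤ 4095 →
      ∀ p, dg a p = b.2 p ∧ b.2 p ≤ b.1) (Θ := Θ) (Θ' := fun m => (1, dg (Θ m)))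
    (fun _ p => ⟨dg_zero p, le_rfl⟩) (fun a a' b b' h1 h2 h3 p => ?_) (fun m _ _ p => ⟨rfl, h m p⟩) r
  · have e1 : (evM (fun m => ((1 : ℕ), dg (Θ m))) r).1 = evM one1 r :=
      map_evM (AddMonoidHom.fst ℕ (ℕ → ℕ)) _ r
    have e2 : (evM (fun m => ((1 : ℕ), dg (Θ m))) r).2 p = evM (fun m => dg (Θ m) p) r :=
      map_evM ((Pi.evalAddMonoidHom (fun _ => ℕ) p).comp (AddMonoidHom.snd ℕ (ℕ → ℕ))) _ r
    have h2 := h1 (e1 ▸ hr) p
    rw [e1, e2] at h2
    exact ⟨h2.1, h2.1 ▸ h2.2⟩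
  · have h4 : a'.1 + b'.1 ≤ 4095 := h3
    have h5 := h1 (by omega)
    have h6 := h2 (by omega)
    rw [dg_add fun q => by have := h5 q; have := h6 q; omega, (h5 p).1, (h6 p).1]
    exact ⟨rfl, add_le_add (h5 p).2 (h6 p).2⟩

theorem evM_zero' (r : ℕ) : evM (fun _ => (0 : ℕ)) r = 0 :=
  evM_mem (U := (⊥ : AddSubmonoid ℕ)) (fun _ _ => rfl) r

theorem evM_lt {Θ : ℕ → ℕ} {w : ℕ} (h : ∀ m p, dg (Θ m) p ≤ 1) (h' : ∀ m p, w ≤ p → dg (Θ m) p = 0)
    {r : ℕ} (hr : evM one1 r ≤ 4095) : evM Θ r < 2 ^ (12 * w) :=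
  lt_of_dg fun p hp => by simp only [(dg_evM h hr p).1, h' _ p hp, evM_zero']

section Fold

variable {K : ℕ}

theorem dg_ones (K p : ℕ) : dg (2 ^ (12 * K) - 1) p = if p < K then 4095 else 0 := by
  rw [← Nat.one_shiftLeft, (rep_63 K).2, Nat.add_sub_cancel, dg_rep1 (by norm_num)]

theorem pow_modEq (K : ℕ) : 2 ^ (12 * K) ≡ 1 [MOD 2 ^ (12 * K) - 1] :=
  ((Nat.modEq_iff_dvd' Nat.one_le_two_pow).2 dvd_rfl).symm

theorem dg_fmod (hK : 0 < K) (B y : ℕ) (hy : ∀ p, K * B ≤ p → dg y p = 0)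
    (h : ∀ i < K, ∑ n ∈ range B, dg y (n * K + i) ≤ 4094) :
    ∀ i < K, dg (y % (2 ^ (12 * K) - 1)) i = ∑ n ∈ range B, dg y (n * K + i) := by
  induction B generalizing y with
  | zero =>
    obtain rfl : y = 0 := dg_ext fun p => (hy p (by omega)).trans (dg_zero p).symm
    simp [dg_zero]
  | succ B ih =>
    have h0 : 0 < 2 ^ (12 * K) - 1 := Nat.sub_pos_of_lt (Nat.one_lt_two_pow (by omega))
    have h1 : y = (y >>> (12 * K)) <<< (12 * K) + y % 2 ^ (12 * K) := by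
      rw [Nat.shiftLeft_eq, Nat.shiftRight_eq_div_pow, Nat.div_add_mod']
    have h2 := Nat.mod_lt y (Nat.two_pow_pos (12 * K))
    have h3 : ∀ p < K, dg (y % 2 ^ (12 * K)) p = dg y p := fun p hp => by
      conv_rhs => rw [h1, dg_cat h2, if_pos hp]
    have h4 : ∀ i, ∑ n ∈ range (B + 1), dg y (n * K + i) =
        ∑ n ∈ range B, dg (y >>> (12 * K)) (n * K + i) + dg y i := fun i => by
      rw [sum_range_succ', zero_mul, zero_add]
      exact congrArg (· + _) (sum_congr rfl fun n _ => by rw [dg_shr]; congr 1; ring)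
    have h5 := ih (y >>> (12 * K)) (fun p hp => by rw [dg_shr, hy _ (by rw [mul_add]; omega)])
      fun i hi => by have := h i hi; rw [h4] at this; omega
    have h6 := (Nat.mod_lt (y >>> (12 * K)) h0).trans_le (Nat.sub_le _ _)
    generalize hz : y >>> (12 * K) % (2 ^ (12 * K) - 1) = z at h5 h6
    have h7 : ∀ p, dg z p + dg (y % 2 ^ (12 * K)) p =
        if p < K then ∑ n ∈ range (B + 1), dg y (n * K + p) else 0 := fun p => by
      split_ifs with c
      · rw [h5 p c, h3 p c, h4]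
      · rw [dg_high h6 (by omega), dg_high h2 (by omega)]
    have h8 := dg_add (x := z) (y := y % 2 ^ (12 * K)) fun p => by
      rw [h7]
      split_ifs with c
      exacts [by have := h p c; omega, by norm_num]
    have h9 : z + y % 2 ^ (12 * K) < 2 ^ (12 * K) - 1 := by
      refine lt_of_le_of_ne (le_of_dg fun p => ?_) fun e => ?_
      · rw [h8, h7, dg_ones]
        split_ifs with c
        exacts [by have := h p c; omega, le_rfl]
      · have := h8 0
        rw [e, h7, dg_ones, if_pos hK, if_pos hK] at this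
        have := h 0 hK
        omega
    have h10 : y % (2 ^ (12 * K) - 1) = z + y % 2 ^ (12 * K) := by
      rw [← Nat.mod_eq_of_lt h9, ← hz]
      conv_lhs => rw [h1, Nat.shiftLeft_eq]
      refine Nat.ModEq.add_right _ (((pow_modEq K).mul_left _).trans ?_)
      rw [mul_one]
      exact (Nat.mod_modEq _ _).symm
    intro i hi
    rw [h10, h8, h7, if_pos hi]

theorem dg_fold_of (hK : 0 < K) {A : ℕ → Prop} (hA : ∀ p q, A p → A q → p % K = q % K → p = q)
    {y : ℕ} (h1 : ∀ p, dg y p ≤ 4094) (h2 : ∀ p, dg y p ≠ 0 → A p) {p : ℕ} (hp : A p) :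
    dg (y % (2 ^ (12 * K) - 1)) (p % K) = dg y p := by
  have hy : ∀ p, K * y ≤ p → dg y p = 0 := fun p hp => dg_high (w := K * y)
    (Nat.lt_two_pow_self.trans_le (Nat.pow_le_pow_right two_pos (by nlinarith))) hp
  have S : ∀ p, A p → ∑ n ∈ range y, dg y (n * K + p % K) = dg y p := fun p hp => by
    rw [sum_eq_single (p / K), Nat.div_add_mod']
    · intro n _ hn
      by_contra c
      refine hn ?_
      rw [← hA _ _ (h2 _ c) hp (by rw [Nat.mul_add_mod', Nat.mod_mod]), add_comm,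
        Nat.add_mul_div_right _ _ hK, Nat.div_eq_of_lt (Nat.mod_lt _ hK), zero_add]
    · intro c
      rw [mem_range, not_lt, Nat.le_div_iff_mul_le hK] at c
      rw [Nat.div_add_mod', hy _ (by rwa [mul_comm])]
  rw [dg_fmod hK y y hy (fun i hi => ?_) _ (Nat.mod_lt _ hK), S p hp]
  by_cases c : ∃ n, dg y (n * K + i) ≠ 0
  · obtain ⟨n, c⟩ := c
    have := S _ (h2 _ c)
    rw [Nat.mul_add_mod', Nat.mod_eq_of_lt hi] at this
    exact this ▸ h1 _
  · rw [sum_eq_zero fun n _ => by_contra fun d => c ⟨n, d⟩]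
    norm_num

end Fold

section Cat

variable {f g : Zc → ℕ} {Zs : List Zc}

theorem cat_cons (z : ℕ) (f : Zc → ℕ) (Z : Zc) (Zs : List Zc) :
    cat z f (Z :: Zs) = cat z f Zs * 2 ^ (12 * kz Z) + f Z :=
  congrArg (· + f Z) (Nat.shiftLeft_eq _ _)

theorem cat_add (z z' : ℕ) (f g : Zc → ℕ) (Zs : List Zc) :
    cat (z + z') (f + g) Zs = cat z f Zs + cat z' g Zs := by
  induction Zs with
  | nil => rfl
  | cons Z Zs ih => rw [cat_cons, cat_cons, cat_cons, ih, Pi.add_apply]; ring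

theorem cat_zero (Zs : List Zc) : cat 0 0 Zs = 0 := by
  induction Zs with
  | nil => rfl
  | cons Z Zs ih => rw [cat_cons, ih, zero_mul]; rfl

theorem cat_lt (h : ∀ Z ∈ Zs, f Z < 2 ^ (12 * kz Z)) : cat 0 f Zs < cat 1 0 Zs := by
  induction Zs with
  | nil => exact one_pos
  | cons Z Zs ih =>
    have h1 := ih fun Z hZ => h Z (List.mem_cons_of_mem _ hZ)
    have h2 := h Z List.mem_cons_self
    rw [cat_cons, cat_cons]
    nlinarith [Nat.zero_le ((0 : Zc → ℕ) Z)]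

theorem cat_inj (h : ∀ Z ∈ Zs, f Z < 2 ^ (12 * kz Z)) (h' : ∀ Z ∈ Zs, g Z < 2 ^ (12 * kz Z))
    (e : cat 0 f Zs = cat 0 g Zs) : ∀ Z ∈ Zs, f Z = g Z := by
  induction Zs with
  | nil => exact fun _ h => nomatch h
  | cons Z Zs ih =>
    rw [cat_cons, cat_cons] at e
    have h1 := congrArg (· % 2 ^ (12 * kz Z)) e
    simp only [Nat.mul_add_mod', Nat.mod_eq_of_lt (h Z List.mem_cons_self),
      Nat.mod_eq_of_lt (h' Z List.mem_cons_self)] at h1
    rw [h1, Nat.add_right_cancel_iff, Nat.mul_left_inj (by positivity)] at e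
    exact List.forall_mem_cons.2 ⟨h1, ih (fun Z hZ => h Z (List.mem_cons_of_mem _ hZ))
      (fun Z hZ => h' Z (List.mem_cons_of_mem _ hZ)) e⟩

end Cat

end Vale.Agent.P236N
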