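import Vale.Agent.P236N.RcB

/-!
# P236: the checks of the data of one level, in one pass with folded vectors
-/

noncomputable section

namespace Vale.Agent.P236N

open Vale.Agent.P236X

/-- read one field of a group -/
def f1 (Θ : Nat → Nat) (k nx : Nat → Nat → Nat) (r acc : Nat) : Nat :=
  Nat.rec (motive := fun _ => Nat) (k (Nat.shiftRight r 16) acc)
    (fun m _ => nx (Nat.shiftRight r 16) (Nat.add acc (Θ m))) (Nat.land r 65535)

/-- read eight fields of a group -/
def f8s (Θ : Nat → Nat) (k : Nat → Nat → Nat) (_ : Nat) (ih : Nat → Nat → Nat) : Nat → Nat → Nat :=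
  f1 Θ k (f1 Θ k (f1 Θ k (f1 Θ k (f1 Θ k (f1 Θ k (f1 Θ k (f1 Θ k ih)))))))

/-- after a group -/
def fK (ih : Nat → Nat → Nat → Nat) (tot r acc : Nat) : Nat := ih r acc (Nat.add tot acc)

/-- one more group -/
def fS (Θ : Nat → Nat) (_ : Nat) (ih : Nat → Nat → Nat → Nat) (r acc tot : Nat) : Nat :=
  Nat.rec (motive := fun _ => Nat → Nat → Nat) (fK ih tot) (f8s Θ (fK ih tot)) 64 r acc

/-- after a segment -/
def fR (fl : Nat → Nat → Nat) (ih : Nat → Nat → Nat) (out r _ tot : Nat) : Nat := ih r (fl out tot)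

/-- one more segment -/
def fT (Θ : Nat → Nat) (fl : Nat → Nat → Nat) (_ : Nat) (ih : Nat → Nat → Nat) (r out : Nat) : Nat :=
  Nat.rec (motive := fun _ => Nat) out
    (fun m _ => Nat.rec (motive := fun _ => Nat → Nat → Nat → Nat) (fS Θ 0 (fR fl ih out)) (fS Θ) m
      (Nat.shiftRight r 16) 0 0) (Nat.land r 65535)

/-- the value of a row -/
def rowV (Θ : Nat → Nat) (fl : Nat → Nat → Nat) (r : Nat) : Nat :=
  Nat.rec (motive := fun _ => Nat → Nat → Nat) (fun _ out => out) (fT Θ fl) 64 r 0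

/-- the number of fields of a folded vector -/
def kz (Z : Zc) : Nat := Nat.mul Z.U.Y.N Z.U.Y.S
/-- the number of bits of a folded vector -/
def wb (Z : Zc) : Nat := Nat.mul 12 (kz Z)
/-- the modulus -/
def mz1 (Z : Zc) : Nat := Nat.sub (Nat.shiftLeft 1 (wb Z)) 1

/-- the folded unit vector of a column -/
def uf (k m : Nat) (Z : Zc) : Nat :=
  cond (and (Nat.beq (zg Z k) Z.gam) (Nat.blt (c1 m) Z.U.Y.N))
    (Nat.shiftLeft 1 (Nat.mul 12 (Nat.mod (Nat.add (Nat.mul (Nat.sub (Nat.sub Z.U.Y.N 1) (c1 m))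
      Z.U.Y.S) (zi Z k (c3 m) 0)) (kz Z)))) 0

/-- concatenation of folded vectors -/
def cat (z : Nat) (f : Zc → Nat) (Zs : List Zc) : Nat :=
  List.rec (motive := fun _ => Nat) z (fun Z _ ih => Nat.add (Nat.shiftLeft ih (wb Z)) (f Z)) Zs

/-- the weight of a column -/
def uf0 (Zs : List Zc) : Nat := Nat.shiftLeft (cat 1 (fun _ => 0) Zs) 768

/-- the folded unit vectors of a column -/
def ufs (Zs : List Zc) (m : Nat) : Nat :=
  force (Nat.land m 63) fun k => Nat.add (Nat.shiftLeft (cat 1 (uf k m) Zs) 768)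
    (cond (Nat.blt m 64) (Nat.shiftLeft 1 (Nat.mul 12 m)) 0)

/-- the folded unit vectors of a column of degree `t` -/
def uft (Zs : List Zc) (L : Lw) (t m : Nat) : Nat :=
  cond (cv (gtw L (Nat.land m 63)) t m) (Nat.mod (ufs Zs m) 0) (Nat.mod (uf0 Zs) 0)

/-- the mask of degree `t` -/
def mDz (Z : Zc) (t : Nat) : Nat := mD Z.U.Y t

/-- the folded component of degree `t` of the table -/
def zf (k a t : Nat) (Z : Zc) : Nat := Nat.mod (Nat.land (Z02 Z.U k a 0) (mDz Z t)) (mz1 Z)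

/-- a bound -/
def bS (Zs : List Zc) : Nat := Nat.mul 397 (uf0 Zs)
/-- a bound -/
def bT (Zs : List Zc) : Nat := Nat.mul 4095 (uf0 Zs)

/-- the weight of a segment is small -/
def flV (Zs : List Zc) (o s : Nat) : Nat := cond (Nat.blt s (bS Zs)) (Nat.add o s) (Nat.mod (bT Zs) 0)

/-- the value of a row -/
def pV (L : Lw) (Zs : List Zc) (k a i t : Nat) : Nat :=
  rowV (uft Zs L t) (flV Zs) (rwX L k (Nat.add (Nat.shiftLeft i 21) (Nat.shiftLeft (Nat.land a 2097151) 28)))

/-- the check of one entry -/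
def rcT2 (s e a i P j : Nat) : Bool :=
  force (Nat.add i (cdA a)) fun n =>
    Nat.beq (Nat.mod (Nat.add (Nat.mod (Nat.shiftRight (Nat.mod P (Nat.shiftLeft 1 768)) (Nat.mul 12 j)) 4096)
      (Nat.mod (Nat.shiftRight (bts s n) (Nat.add (Nat.add e (Nat.mul 64 j)) 4096)) 2)) 3)
      (Nat.mod (Nat.shiftRight (bts s n) (Nat.add e (Nat.mul 64 j))) 2)

/-- the check of a row -/
def rcF (s : Nat) (L : Lw) (Zs : List Zc) (k a d i : Nat) : Bool :=
  force (Nat.add d i) fun t =>
    and (and (Nat.blt (pV L Zs k a i t) (bT Zs)) ((tgB s t).1 (rcT2 s k a i (pV L Zs k a i t))))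
      (Nat.beq (Nat.shiftRight (Nat.mod (pV L Zs k a i t) (uf0 Zs)) 768) (cat 0 (zf k a t) Zs))

/-- the checks for the rows with given `k2, k3, k4` -/
def df2 (s : Nat) (L : Lw) (T : Nat) (Zs : List Zc) (k g a0 i2 : Nat) : Bool :=
  force (Nat.add a0 (Nat.mul i2 2251799813685249)) fun a => force (Nat.add g (cdeg a)) fun d =>
    allN (rcF s L Zs k a d) (Nat.sub (Nat.succ T) d)

/-- the checks for the rows with given `k, k3, k4` -/
def dfI (s : Nat) (L : Lw) (gs : List Nat) (T : Nat) (Zs : List Zc) (it : Nat) : Bool :=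
  force (Nat.land it 63) fun k => force (nth 0 gs k) fun g =>
    force (Nat.add (Nat.mul (Nat.land (Nat.shiftRight it 6) 7) 7318349394477184)
        (Nat.mul (Nat.shiftRight it 9) 22517998136868864)) fun a =>
      cond (Nat.ble (Nat.add g (cdeg a)) T)
        (allN (df2 s L T Zs k g a) (Nat.succ (Nat.div (Nat.sub T (Nat.add g (cdeg a))) 4))) true

/-- the checks of the data -/
def dfU (L : Lw) (gs : List Nat) (T : Nat) (Zs : List Zc) (s : Nat) (its : List Nat) : Bool :=
  allL (dfI s L gs T Zs) its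

end Vale.Agent.P236N
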