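import Vale.Agent.P236C.Exact
import Vale.Agent.P236X.Sem
import Vale.Agent.P236T.Defs

/-!
# P236: the matrix given by the data is homogeneous
-/

noncomputable section

namespace Vale.Agent.P236N

open Vale.Agent.P236A Vale.Agent.P236C Vale.Agent.P236X MvPolynomial

section Comb

variable {M M' : Type} [AddCommMonoid M] [AddCommMonoid M']

/-- all columns have a property -/
def AllC (P : ℕ → Prop) : GrL → Prop
  | .nil => True
  | .cons _ _ _ cols g => (∀ c ∈ cols, P c) ∧ AllC P g

theorem combV_zero (φ : ℕ → M) (w : ℕ) (l : List ℕ) : combV φ w l 0 = 0 := by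
  induction l with
  | nil => rfl
  | cons c l ih => rw [combV, Nat.zero_mod, Nat.zero_mod, zero_smul, Nat.zero_shiftRight, ih, add_zero]

theorem macV_zero (φ : ℕ → M) (g : GrL) : macV φ 0 g = 0 := by
  induction g with
  | nil => rfl
  | cons _ off w cols g ih => rw [macV, ih, Nat.zero_shiftRight, Nat.zero_mod, combV_zero, add_zero]

theorem map_combV {F : Type} [FunLike F M M'] [AddMonoidHomClass F M M'] (f : F) (φ : ℕ → M)
    (w : ℕ) (l : List ℕ) (key : ℕ) : f (combV φ w l key) = combV (fun c => f (φ c)) w l key := by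
  induction l generalizing key with
  | nil => exact map_zero f
  | cons c l ih => rw [combV, combV, map_add, map_nsmul, ih]

theorem map_macV {F : Type} [FunLike F M M'] [AddMonoidHomClass F M M'] (f : F) (φ : ℕ → M)
    (r : ℕ) (g : GrL) : f (macV φ r g) = macV (fun c => f (φ c)) r g := by
  induction g with
  | nil => exact map_zero f
  | cons _ off w cols g ih => rw [macV, macV, map_add, ih, map_combV]

theorem combV_congr {φ ψ : ℕ → M} {l : List ℕ} (h : ∀ c ∈ l, φ c = ψ c) (w key : ℕ) :
    combV φ w l key = combV ψ w l key := by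
  induction l generalizing key with
  | nil => rfl
  | cons c l ih =>
    rw [combV, combV, h c List.mem_cons_self, ih fun c hc => h c (List.mem_cons_of_mem _ hc)]

theorem macV_congr {φ ψ : ℕ → M} {g : GrL} (h : AllC (fun c => φ c = ψ c) g) (r : ℕ) :
    macV φ r g = macV ψ r g := by
  induction g with
  | nil => rfl
  | cons _ off w cols g ih => rw [macV, macV, ih h.2, combV_congr h.1]

theorem AllC.mono {P Q : ℕ → Prop} {g : GrL} (h : AllC P g) (H : ∀ c, P c → Q c) : AllC Q g := by
  induction g with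
  | nil => trivial
  | cons _ off w cols g ih => exact ⟨fun c hc => H c (h.1 c hc), ih h.2⟩

theorem combV_mem {σ : Type} [SetLike σ M] [AddSubmonoidClass σ M] {U : σ} {φ : ℕ → M}
    {l : List ℕ} (h : ∀ c ∈ l, φ c ∈ U) (w key : ℕ) : combV φ w l key ∈ U := by
  induction l generalizing key with
  | nil => exact zero_mem U
  | cons c l ih =>
    exact add_mem (nsmul_mem (h c List.mem_cons_self) _)
      (ih (fun c hc => h c (List.mem_cons_of_mem _ hc)) _)

theorem macV_mem {σ : Type} [SetLike σ M] [AddSubmonoidClass σ M] {U : σ} {φ : ℕ → M} {g : GrL}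
    (h : AllC (fun c => φ c ∈ U) g) (r : ℕ) : macV φ r g ∈ U := by
  induction g with
  | nil => exact zero_mem U
  | cons _ off w cols g ih => exact add_mem (ih h.2) (combV_mem h.1 _ _)

end Comb

theorem mz_ex4 (a b c d : ℕ) :
    mz 3 (ex4 a b c d) = 2 * ((a + 4 * b + 13 * c + 40 * d : ℕ) : ℤ) := mz_mon4 a b c d

theorem eq_ex4 {J : ℕ →₀ ℕ} (h : J.support ⊆ Finset.range 4) :
    J = ex4 (J 0) (J 1) (J 2) (J 3) := by
  ext i
  by_cases hi : i < 4
  · interval_cases i <;> simp [ex4]
  · rw [Finsupp.notMem_support_iff.1 fun h1 => hi (Finset.mem_range.1 (h h1))]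
    simp only [ex4, Finsupp.add_apply]
    rw [Finsupp.single_eq_of_ne (by omega), Finsupp.single_eq_of_ne (by omega),
      Finsupp.single_eq_of_ne (by omega), Finsupp.single_eq_of_ne (by omega)]
    rfl

theorem mz_eq {J : ℕ →₀ ℕ} (h : J.support ⊆ Finset.range 4) : mz 3 J = 2 * (tdeg J : ℤ) :=
  (congrArg (mz 3) (eq_ex4 h)).trans (mz_ex4 _ _ _ _)

theorem mz_lmon (col : ℕ) : mz 3 (lmon col) = 2 * (cdg col : ℤ) := mz_ex4 _ _ _ _

theorem allN_spec {f : ℕ → Bool} {n : ℕ} (h : allN f n = true) {i : ℕ} (hi : i < n) :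
    f i = true := by
  induction n with
  | zero => omega
  | succ n ih =>
    change cond (allN f n) (f n) false = true at h
    cases h1 : allN f n <;> rw [h1] at h
    · cases h
    · rcases Nat.lt_succ_iff_lt_or_eq.1 hi with h2 | rfl
      exacts [ih h1 h2, h]

theorem allL_spec {α : Type} {f : α → Bool} {l : List α} (h : allL f l = true) {a : α}
    (ha : a ∈ l) : f a = true := by
  induction l with
  | nil => cases ha
  | cons b l ih =>
    change cond (f b) (allL f l) false = true at h
    cases h1 : f b <;> rw [h1] at h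
    · cases h
    · rcases List.mem_cons.1 ha with rfl | h2
      exacts [h1, ih h h2]

theorem allC_of_all {f : ℕ → ℕ → List ℕ → Bool} {P : ℕ → Prop}
    (H : ∀ tag w cols, f tag w cols = true → ∀ c ∈ cols, P c) {g : GrL} (h : g.all f = true) :
    AllC P g := by
  induction g with
  | nil => trivial
  | cons tag off w cols g ih =>
    rw [GrL.all, Bool.and_eq_true] at h
    exact ⟨H _ _ _ h.1, ih h.2⟩

variable {D : ℕ → Lv} {S T : ℕ}

/-- The columns of the level `s` have the right weights. -/
def OkH (s : ℕ) (L : Lv) (T : ℕ) : Prop :=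
  ∀ t ≤ T, AllC (fun col => cdg col + gw (s + 1) (col % 64) = t) (colF L t)

theorem okH_of {s : ℕ} {L : Lv} {gm : List ℕ} {Nn : ℕ} (h : lvOK L gm T Nn = true)
    (hg : ∀ k < 64, gtd L k = gw (s + 1) k) : OkH s L T := fun t ht => by
  have h1 := allN_spec h (Nat.lt_succ_of_le ht)
  rw [Bool.and_eq_true] at h1
  refine allC_of_all (fun tag w cols h2 c hc => ?_) h1.2
  rw [Bool.and_eq_true] at h2
  have h3 := allL_spec h2.2 hc
  simp only [Bool.and_eq_true] at h3
  have h4 : Nat.land c 63 = c % 64 := Nat.and_two_pow_sub_one_eq_mod c 6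
  rw [← hg _ (Nat.mod_lt _ (by norm_num)), ← h4]
  exact Nat.eq_of_beq_eq_true h3.1.1.2

/-- the table of the degrees is correct -/
def gtOK (s : Nat) (L : Lv) : Bool := allN (fun k => Nat.beq (gtd L k) (gw (Nat.succ s) k)) 64

theorem gtOK_spec {s : ℕ} {L : Lv} (h : gtOK s L = true) : ∀ k < 64, gtd L k = gw (s + 1) k :=
  fun _ hk => Nat.eq_of_beq_eq_true (allN_spec h hk)

theorem dRow_mem {s : ℕ} {L : Lv} (h : OkH s L T) (e k c : ℕ) {t : ℕ} (ht : t ≤ T) :
    dRow L e k c t ∈ (gA 3 K9).G (2 * (t : ℤ) - (2 * gw (s + 1) k : ℕ)) := by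
  refine macV_mem ((h t ht).mono fun col hc => ?_) _
  split_ifs with h1
  · refine (mem_gA 3).2 (isWeightedHomogeneous_monomial _ _ _ ?_)
    rw [h1] at hc
    have h2 := mz_lmon col
    rw [mz] at h2
    rw [h2]
    omega
  · exact zero_mem _

theorem r3_lift3 (a : ZMod 3) : P236T.r3 (lift3 a) = a := by
  revert a
  decide

theorem homD_delta (h : ∀ s ≤ S, OkH s (D s) T) : HomD 3 (Gam S) (delta D T S) := by
  have hw : ∀ g g' J, IsWeightedHomogeneous (wz 3) (delta D T S g g' J)
      (mz 3 J + (Gam S).wt g - (Gam S).wt g') := fun g g' J => by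
    rw [delta]
    split_ifs with h2 h1
    · have h3 := dRow_mem (h g.1 (by have := g'.1.2; omega)) g.2 g'.2 (kcode J) h1.2
      rw [mz_eq h1.1, Gam_wt, Gam_wt, h2]
      convert (mem_gA 3).1 h3 using 1
      push_cast
      ring
    · by_cases h3 : xi0 S g g' J = 0
      · rw [xi0, if_pos h2] at h3
        rw [h3, show lift3 0 = 0 from rfl, map_zero]
        exact isWeightedHomogeneous_zero _ _ _
      · rw [xi0_wt h3, sub_self]
        exact isWeightedHomogeneous_C _ _
    · exact isWeightedHomogeneous_zero _ _ _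
  refine ⟨hw, fun g g' J hg => if_neg hg, fun g' => ?_⟩
  by_cases h1 : (g'.1 : ℕ) = 1
  · refine nonNeg_gA 3 _ _ ((mem_gA 3).2 (hw _ g' 0)) ?_
    have := gw_one_pos g'.2 g'.2.2
    rw [(Gam S).wt_g0, Gam_wt, h1, mz_zero]
    omega
  · exact if_neg (by simpa using h1)

end Vale.Agent.P236N
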