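import Vale.Agent.P236C.All
import Vale.Agent.P236N.Rows
import Vale.Agent.P236N.Msk

/-!
# P236: the rows of the rank certificates lie in the masks
-/

namespace Vale.Agent.P236N

open Vale.Agent.P236C

theorem qA0x94 : ∀ T, 0 ≤ T → T < 0 + 95 → T ≤ 107 → RankQ (QE (qM mk0)) 0 T (rT 0 T) :=
  run_specQ _ cA0x94 (by decide +kernel)

theorem rankQ0 (T : ℕ) (h : T ≤ 94) : RankQ (QE (qM mk0)) 0 T (rT 0 T) := by
  exact qA0x94 T (by omega) (by omega) (by omega)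

theorem qA1x52 : ∀ T, 0 ≤ T → T < 0 + 53 → T ≤ 107 → RankQ (QE (qM mk1)) 1 T (rT 1 T) :=
  run_specQ _ cA1x52 (by decide +kernel)

theorem qA1x94 : ∀ T, 53 ≤ T → T < 53 + 42 → T ≤ 107 → RankQ (QE (qM mk1)) 1 T (rT 1 T) :=
  run_specQ _ cA1x94 (by decide +kernel)

theorem rankQ1 (T : ℕ) (h : T ≤ 94) : RankQ (QE (qM mk1)) 1 T (rT 1 T) := by
  by_cases c52 : T < 0 + 53
  · exact qA1x52 T (by omega) c52 (by omega)
  exact qA1x94 T (by omega) (by omega) (by omega)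

theorem qA2x60 : ∀ T, 0 ≤ T → T < 0 + 61 → T ≤ 107 → RankQ (QE (qM mk2)) 2 T (rT 2 T) :=
  run_specQ _ cA2x60 (by decide +kernel)

theorem qA2x79 : ∀ T, 61 ≤ T → T < 61 + 19 → T ≤ 107 → RankQ (QE (qM mk2)) 2 T (rT 2 T) :=
  run_specQ _ cA2x79 (by decide +kernel)

theorem qA2x85 : ∀ T, 80 ≤ T → T < 80 + 6 → T ≤ 107 → RankQ (QE (qM mk2)) 2 T (rT 2 T) :=
  run_specQ _ cA2x85 (by decide +kernel)

theorem qA2x88 : ∀ T, 86 ≤ T → T < 86 + 3 → T ≤ 107 → RankQ (QE (qM mk2)) 2 T (rT 2 T) :=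
  run_specQ _ cA2x88 (by decide +kernel)

theorem qA2x90 : ∀ T, 89 ≤ T → T < 89 + 2 → T ≤ 107 → RankQ (QE (qM mk2)) 2 T (rT 2 T) :=
  run_specQ _ cA2x90 (by decide +kernel)

theorem qA2x92 : ∀ T, 91 ≤ T → T < 91 + 2 → T ≤ 107 → RankQ (QE (qM mk2)) 2 T (rT 2 T) :=
  run_specQ _ cA2x92 (by decide +kernel)

theorem qA2x93 : ∀ T, 93 ≤ T → T < 93 + 1 → T ≤ 107 → RankQ (QE (qM mk2)) 2 T (rT 2 T) :=
  run_specQ _ cA2x93 (by decide +kernel)

theorem qA2x94 : ∀ T, 94 ≤ T → T < 94 + 1 → T ≤ 107 → RankQ (QE (qM mk2)) 2 T (rT 2 T) :=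
  run_specQ _ cA2x94 (by decide +kernel)

theorem rankQ2 (T : ℕ) (h : T ≤ 94) : RankQ (QE (qM mk2)) 2 T (rT 2 T) := by
  by_cases c60 : T < 0 + 61
  · exact qA2x60 T (by omega) c60 (by omega)
  by_cases c79 : T < 61 + 19
  · exact qA2x79 T (by omega) c79 (by omega)
  by_cases c85 : T < 80 + 6
  · exact qA2x85 T (by omega) c85 (by omega)
  by_cases c88 : T < 86 + 3
  · exact qA2x88 T (by omega) c88 (by omega)
  by_cases c90 : T < 89 + 2
  · exact qA2x90 T (by omega) c90 (by omega)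
  by_cases c92 : T < 91 + 2
  · exact qA2x92 T (by omega) c92 (by omega)
  by_cases c93 : T < 93 + 1
  · exact qA2x93 T (by omega) c93 (by omega)
  exact qA2x94 T (by omega) (by omega) (by omega)

end Vale.Agent.P236N
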